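import Mathlib
import Vale.Agent.P150.H185.MainAT

open Filter Topology

/-! Holley-Stroock comparison for the heat-bath Dirichlet form, and the mixing time from the gap. -/

namespace Vale.Agent.P150.H704

open Vale.Agent.P150

variable {n : ℕ}

/-- harmonic weight -/
lemma wt_mono {a p q P Q : ℝ} (ha : 0 < a) (hp : 0 < p) (hq : 0 < q) (hP : a * p ≤ P)
    (hQ : a * q ≤ Q) : a * (p * q / (p + q)) ≤ P * Q / (P + Q) := by
  have hP0 : 0 < P := lt_of_lt_of_le (mul_pos ha hp) hP
  have hQ0 : 0 < Q := lt_of_lt_of_le (mul_pos ha hq) hQ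
  rw [← mul_div_assoc, div_le_div_iff₀ (by linarith) (by linarith)]
  have h1 : a * p * (q * Q) ≤ P * (q * Q) := mul_le_mul_of_nonneg_right hP (by positivity)
  have h2 : a * q * (p * P) ≤ Q * (p * P) := mul_le_mul_of_nonneg_right hQ (by positivity)
  nlinarith [h1, h2]

/-- variance is at most any second moment -/
lemma var_le_ex (J : Fin n → Fin n → ℝ) (b : Fin n → ℝ) (f : Cfg n → ℝ) (c : ℝ) :
    var J b f ≤ ex J b (fun x => (f x - c) ^ 2) := by
  have hs := gibbs_sum J b
  set m := ex J b f with hm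
  have h1 : ex J b (fun x => (f x - c) ^ 2)
      = ex J b (fun x => (f x - m) ^ 2) + (m - c) ^ 2 := by
    unfold ex
    have e : ∀ x, gibbs J b x * (f x - c) ^ 2 = gibbs J b x * (f x - m) ^ 2
        + (2 * (m - c)) * (gibbs J b x * f x) + ((m - c) ^ 2 - 2 * (m - c) * m) * gibbs J b x := by
      intro x; ring
    simp only [e, Finset.sum_add_distrib, ← Finset.mul_sum]
    have hm' : ∑ x, gibbs J b x * f x = m := rfl
    rw [hm', hs]
    ring
  unfold var
  rw [h1]
  have := sq_nonneg (m - c)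
  linarith

/-- Holley-Stroock for the heat-bath form. -/
theorem comp {J J' : Fin n → Fin n → ℝ} (hJ : ∀ i j, J i j = J j i) (hJ' : ∀ i j, J' i j = J' j i)
    {b b' : Fin n → ℝ} {a B γ : ℝ} (ha : 0 < a) (hB : 0 < B) (hγ : 0 ≤ γ)
    (h1 : ∀ x, a * gibbs J' b' x ≤ gibbs J b x) (h2 : ∀ x, gibbs J b x ≤ B * gibbs J' b' x)
    (hP : ∀ f : Cfg n → ℝ, γ * var J' b' f ≤ dir J' b' f f) (f : Cfg n → ℝ) :
    (a / B * γ) * var J b f ≤ dir J b f f := by
  have hv : var J b f ≤ B * var J' b' f := by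
    refine (var_le_ex J b f (ex J' b' f)).trans ?_
    unfold var ex
    rw [Finset.mul_sum]
    refine Finset.sum_le_sum fun x _ => ?_
    rw [← mul_assoc]
    exact mul_le_mul_of_nonneg_right (h2 x) (sq_nonneg _)
  have hd : a * dir J' b' f f ≤ dir J b f f := by
    rw [dir_eq hJ, dir_eq hJ']
    rw [← mul_assoc, mul_comm a (1 / 2), mul_assoc, Finset.mul_sum]
    refine mul_le_mul_of_nonneg_left (Finset.sum_le_sum fun i _ => ?_) (by norm_num)
    rw [Finset.mul_sum]
    refine Finset.sum_le_sum fun x _ => ?_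
    rw [← mul_assoc]
    exact mul_le_mul_of_nonneg_right
      (wt_mono ha (gibbs_pos J' b' x) (gibbs_pos J' b' _) (h1 x) (h1 _))
      (mul_self_nonneg _)
  have h3 := hP f
  calc (a / B * γ) * var J b f ≤ (a / B * γ) * (B * var J' b' f) :=
        mul_le_mul_of_nonneg_left hv (by positivity)
    _ = a * (γ * var J' b' f) := by field_simp
    _ ≤ a * dir J' b' f f := mul_le_mul_of_nonneg_left h3 ha.le
    _ ≤ dir J b f f := hd

/-- mixing time from a Poincare inequality and a lower bound on the Gibbs weights -/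
theorem tmix_le {J : Fin n → Fin n → ℝ} (hJ : ∀ i j, J i j = J j i) (b : Fin n → ℝ) {γ L : ℝ}
    (hγ : 0 < γ) (hL : 0 ≤ L) (hP : ∀ f : Cfg n → ℝ, γ * var J b f ≤ dir J b f f)
    (hm : ∀ x, (gibbs J b x)⁻¹ ≤ Real.exp L) :
    tmix J b ≤ (L + Real.log 4) / (2 * γ) := by
  have h4 : 0 < Real.log 4 := Real.log_pos (by norm_num)
  unfold tmix
  refine csInf_le ⟨0, fun t ht => ht.1⟩ ⟨by positivity, fun x => ?_⟩
  set t := (L + Real.log 4) / (2 * γ) with ht
  have ht0 : 0 ≤ t := by positivity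
  have h1 := Semi.tv_sq_le b hJ γ hP x t ht0
  have h2 : 2 * γ * t = L + Real.log 4 := by rw [ht]; field_simp
  have h3 : Real.exp (-(2 * γ * t)) * (gibbs J b x)⁻¹ ≤ 1 / 4 := by
    refine (mul_le_mul_of_nonneg_left (hm x) (Real.exp_pos _).le).trans (le_of_eq ?_)
    rw [← Real.exp_add, h2]
    have : -(L + Real.log 4) + L = -Real.log 4 := by ring
    rw [this, Real.exp_neg, Real.exp_log (by norm_num)]
    norm_num
  have h5 : (2 * tvDist J b t x) ^ 2 ≤ (1 / 2) ^ 2 := by
    have : (1 / 2 : ℝ) ^ 2 = 1 / 4 := by norm_num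
    rw [this]
    exact h1.trans h3
  have h6 := abs_le_of_sq_le_sq' h5 (by norm_num)
  linarith only [h6.2]

end Vale.Agent.P150.H704
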