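import Mathlib
import Vale.Agent.P150.H704.Comp

open MeasureTheory ProbabilityTheory Filter Topology

/-! Upper bounds for the mixing time and lower bounds for the gap at and above criticality. -/

namespace Vale.Agent.P150.H704

open Vale.Agent.P150

variable {n : ℕ}

lemma energy_sk (β : ℝ) (g : Pairs n → ℝ) (x : Cfg n) :
    energy (skJ β g) (fun _ => 0) x = β / 2 * F.qf (F.skM g) (F.sv x) := by
  rw [F.half_qf_eq]
  unfold energy
  simp only [zero_mul, Finset.sum_const_zero, add_zero]
  rw [sum_pairs]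
  have h1 : ∀ i : Fin n, (if i < i then skJ β g i i * sp (x i) * sp (x i) else 0) = 0 := by
    intro i; simp
  simp only [h1, Finset.sum_const_zero, add_zero]
  refine Finset.sum_congr rfl fun p _ => ?_
  rw [if_pos p.2, if_neg p.2.asymm, add_zero]
  unfold skJ
  rw [gsym_pair]
  ring

/-- the energy at inverse temperature one -/
noncomputable def HH (g : Pairs n → ℝ) (x : Cfg n) : ℝ := 1 / 2 * F.qf (F.skM g) (F.sv x)

lemma energy_HH (β : ℝ) (g : Pairs n → ℝ) (x : Cfg n) :
    energy (skJ β g) (fun _ => 0) x = β * HH g x := by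
  rw [energy_sk]; unfold HH; ring

lemma whp_Z {lam M : ℝ} (hl : lam ^ 2 = 4 * M ^ 2) (hM : Real.log 2 < M ^ 2) :
    WHP (fun n => {g | ∀ x : Cfg n, lam * HH g x ≤ 2 * M ^ 2 * n}) := by
  have key : ∀ᶠ i : F.Idx0 in F.whpF, ∀ x : Cfg i.1, lam * HH i.2 x ≤ 2 * M ^ 2 * i.1 := by
    refine F.eventually_whpF_of_real (fun n : ℕ => Real.exp (-((M ^ 2 - Real.log 2) * n))) ?_ ?_
    · have h0 : 0 < M ^ 2 - Real.log 2 := by linarith
      have h1 : Tendsto (fun n : ℕ => (M ^ 2 - Real.log 2) * (n : ℝ)) atTop atTop :=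
        tendsto_natCast_atTop_atTop.const_mul_atTop h0
      exact Real.tendsto_exp_neg_atTop_nhds_zero.comp h1
    · filter_upwards [eventually_gt_atTop 0] with n hn
      obtain ⟨h1, h2⟩ := F.integral_Z_le hn lam
      have hZ : ∀ g : Pairs n → ℝ,
          0 < ∑ x : Cfg n, Real.exp (lam / 2 * F.qf (F.skM g) (F.sv x)) :=
        fun g => Finset.sum_pos (fun _ _ => Real.exp_pos _) Finset.univ_nonempty
      have h3 := mul_meas_ge_le_integral_of_nonneg (μ := gpi (Pairs n))
        (Eventually.of_forall fun g => (hZ g).le) h1 (Real.exp (2 * M ^ 2 * n))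
      have h4 : (disorder n).real {g | ¬ ∀ x : Cfg n, lam * HH g x ≤ 2 * M ^ 2 * n}
          ≤ (gpi (Pairs n)).real {g | Real.exp (2 * M ^ 2 * n) ≤
            ∑ x : Cfg n, Real.exp (lam / 2 * F.qf (F.skM g) (F.sv x))} := by
        have hp : IsProbabilityMeasure (gpi (Pairs n)) := by infer_instance
        refine measureReal_mono fun g hg => ?_
        have hg' : ¬ ∀ x : Cfg n, lam * HH g x ≤ 2 * M ^ 2 * n := hg
        push Not at hg'
        obtain ⟨x, hx⟩ := hg'
        show Real.exp (2 * M ^ 2 * n) ≤ _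
        have h5 : lam / 2 * F.qf (F.skM g) (F.sv x) = lam * HH g x := by unfold HH; ring
        calc Real.exp (2 * M ^ 2 * n) ≤ Real.exp (lam * HH g x) := Real.exp_le_exp.2 hx.le
          _ = Real.exp (lam / 2 * F.qf (F.skM g) (F.sv x)) := by rw [h5]
          _ ≤ _ := Finset.single_le_sum
              (f := fun x : Cfg n => Real.exp (lam / 2 * F.qf (F.skM g) (F.sv x)))
              (fun _ _ => (Real.exp_pos _).le) (Finset.mem_univ x)
      refine h4.trans ?_
      have h6 := h3.trans h2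
      have h7 : Real.exp (2 * M ^ 2 * n) = Real.exp (n * (Real.log 2 + lam ^ 2 / 4))
          * Real.exp ((M ^ 2 - Real.log 2) * n) := by
        rw [← Real.exp_add]; congr 1; rw [hl]; ring
      rw [h7] at h6 ⊢
      have h8 : 0 < Real.exp (n * (Real.log 2 + lam ^ 2 / 4)) := Real.exp_pos _
      rw [mul_assoc] at h6
      have h9 := le_of_mul_le_mul_left (h6.trans (le_of_eq (mul_one _).symm)) h8
      rw [Real.exp_neg, ← one_div, le_div_iff₀ (Real.exp_pos _), mul_comm]
      exact h9
  exact key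

/-- first moment bound for the maximal energy -/
theorem whp_H {M : ℝ} (hM0 : 0 < M) (hM : Real.log 2 < M ^ 2) :
    WHP (fun n => {g | ∀ x : Cfg n, |HH g x| ≤ M * n}) := by
  have h1 := whp_Z (lam := 2 * M) (M := M) (by ring) hM
  have h2 := whp_Z (lam := -(2 * M)) (M := M) (by ring) hM
  refine MainThm.whp_mono (MainThm.whp_inter h1 h2) (Eventually.of_forall fun n => ?_)
  rintro g ⟨ha, hb⟩ x
  have ha' : 2 * M * HH g x ≤ 2 * M ^ 2 * n := ha x
  have hb' : -(2 * M) * HH g x ≤ 2 * M ^ 2 * n := hb x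
  have h3 : (2 * M) * HH g x ≤ (2 * M) * (M * n) := by linarith
  have h4 : (2 * M) * (-HH g x) ≤ (2 * M) * (M * n) := by linarith
  have h5 := le_of_mul_le_mul_left h3 (by positivity)
  have h6 := le_of_mul_le_mul_left h4 (by positivity)
  exact abs_le.2 ⟨by linarith, h5⟩

/-- comparison of two temperatures -/
theorem det_comp {g : Pairs n → ℝ} {β β' A c : ℝ} (hβ : β' ≤ β) (hc : 0 ≤ c)
    (hA : ∀ x : Cfg n, |HH g x| ≤ A)
    (hP : ∀ f : Cfg n → ℝ, c * var (skJ β' g) (fun _ => 0) f ≤ dir (skJ β' g) (fun _ => 0) f f)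
    (f : Cfg n → ℝ) :
    (Real.exp (-(2 * (β - β') * A)) * c) * var (skJ β g) (fun _ => 0) f
      ≤ dir (skJ β g) (fun _ => 0) f f := by
  set Z := ∑ y, Real.exp (energy (skJ β g) (fun _ => 0) y) with hZ
  set Z' := ∑ y, Real.exp (energy (skJ β' g) (fun _ => 0) y) with hZ'
  have hZp : 0 < Z := Finset.sum_pos (fun _ _ => Real.exp_pos _) Finset.univ_nonempty
  have hZp' : 0 < Z' := Finset.sum_pos (fun _ _ => Real.exp_pos _) Finset.univ_nonempty
  have e1 : ∀ x, gibbs (skJ β g) (fun _ => 0) x = Real.exp (β * HH g x) / Z := by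
    intro x; unfold gibbs; rw [energy_HH]
  have e2 : ∀ x, gibbs (skJ β' g) (fun _ => 0) x = Real.exp (β' * HH g x) / Z' := by
    intro x; unfold gibbs; rw [energy_HH]
  set η := β - β' with hη
  have hη0 : 0 ≤ η := by rw [hη]; linarith
  have key := comp (J := skJ β g) (J' := skJ β' g) (Asm.skJ_symm β g) (Asm.skJ_symm β' g)
    (b := fun _ => 0) (b' := fun _ => 0) (a := Real.exp (-(η * A)) * (Z' / Z))
    (B := Real.exp (η * A) * (Z' / Z)) (γ := c) (by positivity) (by positivity) hc
    (by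
      intro x
      rw [e1, e2]
      have h1 : Real.exp (-(η * A)) * (Z' / Z) * (Real.exp (β' * HH g x) / Z')
          = Real.exp (-(η * A) + β' * HH g x) / Z := by
        rw [Real.exp_add]; field_simp
      rw [h1]
      refine div_le_div_of_nonneg_right (Real.exp_le_exp.2 ?_) hZp.le
      have h2 := mul_le_mul_of_nonneg_left (abs_le.1 (hA x)).1 hη0
      have h3 : η * HH g x = β * HH g x - β' * HH g x := by rw [hη]; ring
      linarith)
    (by
      intro x
      rw [e1, e2]
      have h1 : Real.exp (η * A) * (Z' / Z) * (Real.exp (β' * HH g x) / Z')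
          = Real.exp (η * A + β' * HH g x) / Z := by
        rw [Real.exp_add]; field_simp
      rw [h1]
      refine div_le_div_of_nonneg_right (Real.exp_le_exp.2 ?_) hZp.le
      have h2 := mul_le_mul_of_nonneg_left (abs_le.1 (hA x)).2 hη0
      have h3 : η * HH g x = β * HH g x - β' * HH g x := by rw [hη]; ring
      linarith)
    hP f
  have h4 : Real.exp (-(η * A)) * (Z' / Z) / (Real.exp (η * A) * (Z' / Z))
      = Real.exp (-(2 * η * A)) := by
    have : Real.exp (-(2 * η * A)) = Real.exp (-(η * A)) * Real.exp (-(η * A)) := by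
      rw [← Real.exp_add]; congr 1; ring
    rw [this, Real.exp_neg (η * A)]
    field_simp
  rw [h4] at key
  exact key

/-- lower bound on the Gibbs weights -/
lemma gibbs_inv_le {g : Pairs n → ℝ} {β A : ℝ} (hβ : 0 ≤ β) (hA : ∀ x : Cfg n, |HH g x| ≤ A)
    (x : Cfg n) : (gibbs (skJ β g) (fun _ => 0) x)⁻¹ ≤ Real.exp (n * Real.log 2 + 2 * β * A) := by
  unfold gibbs
  simp only [energy_HH]
  rw [inv_div, div_le_iff₀ (Real.exp_pos _), ← Real.exp_add]
  have h1 : ∀ y : Cfg n, Real.exp (β * HH g y) ≤ Real.exp (β * A) := fun y =>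
    Real.exp_le_exp.2 (mul_le_mul_of_nonneg_left (abs_le.1 (hA y)).2 hβ)
  have h2 : ∑ y : Cfg n, Real.exp (β * HH g y) ≤ Real.exp (n * Real.log 2 + β * A) := by
    refine (Finset.sum_le_sum fun y _ => h1 y).trans (le_of_eq ?_)
    rw [Finset.sum_const, Finset.card_univ, Fintype.card_fun, Fintype.card_bool,
      Fintype.card_fin, nsmul_eq_mul, Real.exp_add]
    push_cast
    rw [← Real.rpow_natCast, Real.rpow_def_of_pos two_pos, mul_comm (Real.log 2)]
  refine h2.trans (Real.exp_le_exp.2 ?_)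
  have h3 := mul_le_mul_of_nonneg_left (abs_le.1 (hA x)).1 hβ
  linarith

end Vale.Agent.P150.H704
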