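import Mathlib
import Vale.Agent.P150.H704.Upper

open MeasureTheory ProbabilityTheory Filter Topology
open scoped ENNReal

/-! Transfer of events from the planted model to the Gibbs measure at `β = 1`. -/

namespace Vale.Agent.P150.H704

open Vale.Agent.P150

/-- Gaussian shift (Cameron-Martin) for the standard Gaussian vector. -/
theorem shift_lintegral {ι : Type*} [Fintype ι] (c : ι → ℝ) {G : (ι → ℝ) → ℝ≥0∞}
    (hG : Measurable G) :
    ∫⁻ w, ENNReal.ofReal (Real.exp (∑ k, c k * w k)) * G w ∂(gpi ι)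
      = ENNReal.ofReal (Real.exp ((∑ k, c k ^ 2) / 2)) * ∫⁻ w, G (w + c) ∂(gpi ι) := by
  have hm : Measurable fun w : ι → ℝ => ENNReal.ofReal (Real.exp (∑ k, c k * w k)) := by
    fun_prop
  have hGc : Measurable fun w : ι → ℝ => G (w + c) := hG.comp (by fun_prop)
  have hmG : Measurable fun w : ι → ℝ => ENNReal.ofReal (Real.exp (∑ k, c k * w k)) * G w :=
    hm.mul hG
  rw [F.lintegral_gpi hmG, F.lintegral_gpi hGc]
  rw [← lintegral_sub_right_eq_self (fun w : ι → ℝ => ENNReal.ofReal (F.gd w) * G (w + c)) c,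
    ← lintegral_const_mul]
  · refine lintegral_congr fun w => ?_
    rw [sub_add_cancel, ← mul_assoc, ← mul_assoc, ← ENNReal.ofReal_mul (F.gd_nonneg _),
      ← ENNReal.ofReal_mul (Real.exp_pos _).le]
    congr 2
    rw [F.gd_eq, F.gd_eq]
    have h1 : ∑ k, (w - c) k ^ 2 = ∑ k, w k ^ 2 - 2 * ∑ k, c k * w k + ∑ k, c k ^ 2 := by
      rw [Finset.mul_sum, ← Finset.sum_sub_distrib, ← Finset.sum_add_distrib]
      refine Finset.sum_congr rfl fun k _ => ?_
      rw [Pi.sub_apply]
      ring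
    have h2 : Real.exp (-(∑ i, w i ^ 2) / 2) * Real.exp (∑ k, c k * w k)
        = Real.exp ((∑ k, c k ^ 2) / 2) * Real.exp (-(∑ i, (w - c) i ^ 2) / 2) := by
      rw [← Real.exp_add, ← Real.exp_add, h1]
      congr 1
      ring
    linear_combination ((√(2 * Real.pi))⁻¹ ^ Fintype.card ι) * h2
  · have h2 : Measurable fun w : ι → ℝ => ENNReal.ofReal (F.gd w) * G (w + c) :=
      (F.continuous_gd.measurable.ennreal_ofReal).mul hGc
    exact h2.comp (by fun_prop)

variable {n : ℕ}

/-- the planted shift -/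
noncomputable def plant (x : Cfg n) : Pairs n → ℝ :=
  fun p => sp (x p.1.1) * sp (x p.1.2) / √n

lemma energy_plant (g : Pairs n → ℝ) (x : Cfg n) :
    energy (skJ 1 g) 0 x = ∑ p, plant x p * g p := by
  have h := energy_sk 1 g x
  rw [F.half_qf_eq] at h
  have h0 : energy (skJ 1 g) 0 x = energy (skJ 1 g) (fun _ => 0) x := rfl
  rw [h0, h]
  refine Finset.sum_congr rfl fun p _ => ?_
  unfold plant
  ring

lemma plant_sq (hn : 1 ≤ n) (x : Cfg n) : ∑ p, plant x p ^ 2 = ((n : ℝ) - 1) / 2 := by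
  have hn' : (0 : ℝ) < n := by exact_mod_cast hn
  have h1 : ∀ p : Pairs n, plant x p ^ 2 = 1 / n := by
    intro p
    have h2 := sp_sq (x p.1.1)
    have h3 := sp_sq (x p.1.2)
    unfold plant
    rw [div_pow, Real.sq_sqrt hn'.le]
    congr 1
    calc _ = (sp (x p.1.1) * sp (x p.1.1)) * (sp (x p.1.2) * sp (x p.1.2)) := by ring
      _ = 1 := by rw [h2, h3, one_mul]
  have h4 : 2 * (Fintype.card (Pairs n) : ℝ) = (n : ℝ) ^ 2 - n := by
    have h := sum_pairs (n := n) fun _ _ => (1 : ℝ)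
    simp only [Finset.sum_const, Finset.card_univ, Fintype.card_fin, nsmul_eq_mul, mul_one] at h
    linarith
  simp only [h1, Finset.sum_const, Finset.card_univ, nsmul_eq_mul]
  field_simp
  linarith

lemma measurable_energy (x : Cfg n) : Measurable fun g : Pairs n → ℝ => energy (skJ 1 g) 0 x := by
  simp only [energy_plant]
  fun_prop

/-- one configuration -/
lemma one_conf (hn : 1 ≤ n) (x : Cfg n) {A : Set (Pairs n → ℝ)} (hA : MeasurableSet A) :
    ∫ g, Real.exp (energy (skJ 1 g) 0 x) * A.indicator 1 g ∂(disorder n)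
      = Real.exp (((n : ℝ) - 1) / 4) * (disorder n).real {g | g + plant x ∈ A} := by
  have hd : disorder n = gpi (Pairs n) := rfl
  have hpos : ∀ g : Pairs n → ℝ,
      0 ≤ Real.exp (energy (skJ 1 g) 0 x) * A.indicator (1 : (Pairs n → ℝ) → ℝ) g := fun g =>
    mul_nonneg (Real.exp_pos _).le (Set.indicator_nonneg (fun _ _ => zero_le_one) _)
  have hmeas : Measurable fun g : Pairs n → ℝ =>
      Real.exp (energy (skJ 1 g) 0 x) * A.indicator (1 : (Pairs n → ℝ) → ℝ) g :=
    ((measurable_energy x).exp).mul (measurable_one.indicator hA)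
  rw [integral_eq_lintegral_of_nonneg_ae (Eventually.of_forall hpos) hmeas.aestronglyMeasurable]
  have h1 : ∀ g : Pairs n → ℝ, ENNReal.ofReal (Real.exp (energy (skJ 1 g) 0 x)
      * A.indicator (1 : (Pairs n → ℝ) → ℝ) g)
      = ENNReal.ofReal (Real.exp (∑ p, plant x p * g p)) * A.indicator (1 : (Pairs n → ℝ) → ℝ≥0∞) g := by
    intro g
    rw [ENNReal.ofReal_mul (Real.exp_pos _).le, energy_plant]
    congr 1
    by_cases hg : g ∈ A <;> simp [hg]
  simp only [h1]
  rw [hd, shift_lintegral (plant x) (measurable_one.indicator hA), plant_sq hn x]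
  have h2 : ∫⁻ w, A.indicator (1 : (Pairs n → ℝ) → ℝ≥0∞) (w + plant x) ∂(gpi (Pairs n))
      = gpi (Pairs n) {g | g + plant x ∈ A} := by
    have hm : MeasurableSet {g : Pairs n → ℝ | g + plant x ∈ A} := by
      have : Measurable fun g : Pairs n → ℝ => g + plant x := by fun_prop
      exact this hA
    rw [← lintegral_indicator_one hm]
    rfl
  rw [h2, ENNReal.toReal_mul, ENNReal.toReal_ofReal (Real.exp_pos _).le]
  have h3 : ((n : ℝ) - 1) / 2 / 2 = ((n : ℝ) - 1) / 4 := by ring
  rw [h3]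
  rfl

lemma integrable_one_conf (x : Cfg n) {A : Set (Pairs n → ℝ)} (hA : MeasurableSet A) :
    Integrable (fun g => Real.exp (energy (skJ 1 g) 0 x)
      * A.indicator (1 : (Pairs n → ℝ) → ℝ) g) (disorder n) := by
  have h1 : Integrable (fun g : Pairs n → ℝ => Real.exp (energy (skJ 1 g) 0 x)) (disorder n) := by
    have h := (F.integral_exp_lin (plant x)).1
    simp only [energy_plant]
    exact h
  have h2 := h1.indicator hA
  refine h2.congr (Eventually.of_forall fun g => ?_)
  by_cases hg : g ∈ A <;> simp [hg]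

/-- **[B] transfer** -/
theorem transfer (hn : 1 ≤ n) (S : Cfg n → Set (Pairs n → ℝ)) (hS : ∀ x, MeasurableSet (S x))
    (s : ℝ) :
    ∫ g, ∑ x, Cav.pw 1 g x * (S x).indicator 1 g ∂(disorder n)
      ≤ (disorder n).real {g | ∑ x, Real.exp (energy (skJ 1 g) 0 x)
            < Real.exp (-s) * (2 ^ n * Real.exp (((n : ℝ) - 1) / 4))}
        + Real.exp s * (2 ^ n)⁻¹ * ∑ x, (disorder n).real {g | g + plant x ∈ S x} := by
  have hprob : IsProbabilityMeasure (disorder n) := by unfold disorder; infer_instance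
  set a : ℝ := Real.exp (-s) * (2 ^ n * Real.exp (((n : ℝ) - 1) / 4)) with ha
  have ha0 : 0 < a := by positivity
  set B : Set (Pairs n → ℝ) := {g | ∑ x, Real.exp (energy (skJ 1 g) 0 x) < a} with hB
  have hBm : MeasurableSet B := by
    have h : Measurable fun g : Pairs n → ℝ => ∑ x : Cfg n, Real.exp (energy (skJ 1 g) 0 x) :=
      Finset.measurable_sum _ fun x _ => (measurable_energy x).exp
    exact h measurableSet_Iio
  have hi1 : Integrable (fun g => B.indicator (1 : (Pairs n → ℝ) → ℝ) g) (disorder n) :=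
    (integrable_const (1 : ℝ)).indicator hBm
  have hi2 : Integrable (fun g => ∑ x : Cfg n, a⁻¹ * (Real.exp (energy (skJ 1 g) 0 x)
      * (S x).indicator (1 : (Pairs n → ℝ) → ℝ) g)) (disorder n) :=
    integrable_finsetSum _ fun x _ => (integrable_one_conf x (hS x)).const_mul _
  have hpt : ∀ g : Pairs n → ℝ, ∑ x, Cav.pw 1 g x * (S x).indicator (1 : (Pairs n → ℝ) → ℝ) g
      ≤ B.indicator (1 : (Pairs n → ℝ) → ℝ) g
        + ∑ x : Cfg n, a⁻¹ * (Real.exp (energy (skJ 1 g) 0 x)
          * (S x).indicator (1 : (Pairs n → ℝ) → ℝ) g) := by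
    intro g
    have hind : ∀ x : Cfg n, 0 ≤ (S x).indicator (1 : (Pairs n → ℝ) → ℝ) g := fun x =>
      Set.indicator_nonneg (fun _ _ => zero_le_one) _
    have hind1 : ∀ x : Cfg n, (S x).indicator (1 : (Pairs n → ℝ) → ℝ) g ≤ 1 := fun x =>
      Set.indicator_le_self' (fun _ _ => zero_le_one) _
    by_cases hg : g ∈ B
    · rw [Set.indicator_of_mem hg]
      have h1 : ∑ x, Cav.pw 1 g x * (S x).indicator (1 : (Pairs n → ℝ) → ℝ) g ≤ 1 := by
        refine le_trans (Finset.sum_le_sum fun x _ => ?_) (Cav.pw_sum 1 g).le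
        exact mul_le_of_le_one_right (Cav.pw_pos 1 g x).le (hind1 x)
      have h2 : 0 ≤ ∑ x : Cfg n, a⁻¹ * (Real.exp (energy (skJ 1 g) 0 x)
          * (S x).indicator (1 : (Pairs n → ℝ) → ℝ) g) :=
        Finset.sum_nonneg fun x _ => mul_nonneg (inv_nonneg.2 ha0.le)
          (mul_nonneg (Real.exp_pos _).le (hind x))
      show _ ≤ (1 : ℝ) + _
      linarith
    · rw [Set.indicator_of_notMem hg, zero_add]
      refine Finset.sum_le_sum fun x _ => ?_
      rw [← mul_assoc]
      refine mul_le_mul_of_nonneg_right ?_ (hind x)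
      have hZ : a ≤ ∑ y : Cfg n, Real.exp (energy (skJ 1 g) 0 y) := not_lt.1 hg
      unfold Cav.pw gibbs
      rw [div_eq_inv_mul]
      exact mul_le_mul_of_nonneg_right (inv_anti₀ ha0 hZ) (Real.exp_pos _).le
  have hmain : ∫ g, ∑ x, Cav.pw 1 g x * (S x).indicator (1 : (Pairs n → ℝ) → ℝ) g ∂(disorder n)
      ≤ ∫ g, (B.indicator (1 : (Pairs n → ℝ) → ℝ) g
        + ∑ x : Cfg n, a⁻¹ * (Real.exp (energy (skJ 1 g) 0 x)
          * (S x).indicator (1 : (Pairs n → ℝ) → ℝ) g)) ∂(disorder n) := by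
    refine integral_mono_of_nonneg (Eventually.of_forall fun g => ?_) (hi1.add hi2)
      (Eventually.of_forall hpt)
    exact Finset.sum_nonneg fun x _ => mul_nonneg (Cav.pw_pos 1 g x).le
      (Set.indicator_nonneg (fun _ _ => zero_le_one) _)
  refine hmain.trans (le_of_eq ?_)
  rw [integral_add hi1 hi2, integral_finsetSum _ fun x _ =>
    (integrable_one_conf x (hS x)).const_mul _]
  congr 1
  · rw [integral_indicator hBm]
    simp [Measure.real]
  · rw [Finset.mul_sum]
    refine Finset.sum_congr rfl fun x _ => ?_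
    rw [integral_const_mul, one_conf hn x (hS x), ha]
    rw [← mul_assoc]
    congr 1
    rw [Real.exp_neg]
    field_simp

end Vale.Agent.P150.H704
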