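import Mathlib
import Vale.Agent.P150.H704.Transfer
import Vale.Agent.P150.H185.CritSemi
import Vale.Agent.P150.H185.CritDet

open MeasureTheory ProbabilityTheory Filter Topology

/-! The planted resolvent: Sherman-Morrison for `g + plant x`. -/

namespace Vale.Agent.P150.H704

open Vale.Agent.P150 Vale.Agent.P150.Cav Vale.Agent.P150.H185.Crit

variable {n : ℕ}

lemma gsym_add (g h : Pairs n → ℝ) (i j : Fin n) :
    Vale.Agent.P150.gsym (g + h) i j
      = Vale.Agent.P150.gsym g i j + Vale.Agent.P150.gsym h i j := by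
  unfold Vale.Agent.P150.gsym
  split_ifs <;> simp

lemma gsym_plant (x : Cfg n) (i j : Fin n) :
    Vale.Agent.P150.gsym (plant x) i j = if i = j then 0 else sp (x i) * sp (x j) / √n := by
  unfold Vale.Agent.P150.gsym plant
  rcases lt_trichotomy i j with h | h | h
  · simp [h, h.ne]
  · subst h; simp
  · simp [h, h.asymm, h.ne', mul_comm]

lemma Wm_plant (hn : 0 < n) (g : Pairs n → ℝ) (x : Cfg n) (i j : Fin n) :
    Wm (g + plant x) i j = Wm g i j + if i = j then 0 else sp (x i) * sp (x j) / n := by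
  have hn' : (0 : ℝ) < n := by exact_mod_cast hn
  have hs : √(n : ℝ) * √(n : ℝ) = n := Real.mul_self_sqrt hn'.le
  unfold Wm
  rw [gsym_add, gsym_plant, add_div]
  congr 1
  split_ifs with h
  · simp
  · rw [div_div, hs]

lemma Am_plant (hn : 0 < n) (z : ℂ) (g : Pairs n → ℝ) (x : Cfg n) (v : Fin n → ℂ) (i : Fin n) :
    (Am z (g + plant x)).mulVec v i
      = (Am (z + (n : ℂ)⁻¹) g).mulVec v i
        - (sp (x i) : ℂ) * ((n : ℂ)⁻¹ * ∑ j, v j * (sp (x j) : ℂ)) := by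
  rw [Am_mulVec, Am_mulVec]
  have h1 : ∑ j, (Wm (g + plant x) i j : ℂ) * v j
      = ∑ j, (Wm g i j : ℂ) * v j
        + ((sp (x i) : ℂ) * ((n : ℂ)⁻¹ * ∑ j, v j * (sp (x j) : ℂ)) - (n : ℂ)⁻¹ * v i) := by
    have h2 : ∀ j, (Wm (g + plant x) i j : ℂ) * v j = (Wm g i j : ℂ) * v j
        + ((sp (x i) : ℂ) * ((n : ℂ)⁻¹ * (v j * (sp (x j) : ℂ)))
          - if i = j then (n : ℂ)⁻¹ * v i else 0) := by
      intro j
      rw [Wm_plant hn]
      by_cases h : i = j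
      · subst h
        have h3 : (sp (x i) : ℂ) * (sp (x i) : ℂ) = 1 := by
          rw [← Complex.ofReal_mul, sp_sq]; simp
        simp only [if_true, add_zero]
        linear_combination (-((n : ℂ)⁻¹ * v i)) * h3
      · simp only [h, if_false, sub_zero]
        push_cast
        ring
    rw [Finset.sum_congr rfl fun j _ => h2 j, Finset.sum_add_distrib, Finset.sum_sub_distrib,
      Finset.mul_sum, Finset.mul_sum]
    simp
  rw [h1]
  ring

/-- Sherman-Morrison -/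
theorem sherman (hn : 0 < n) (z : ℂ) (hz : 0 < z.im) (g : Pairs n → ℝ) (x : Cfg n) :
    (n : ℂ)⁻¹ * FF z (g + plant x) x * (1 - (n : ℂ)⁻¹ * FF (z + (n : ℂ)⁻¹) g x)
      = (n : ℂ)⁻¹ * FF (z + (n : ℂ)⁻¹) g x := by
  set z1 : ℂ := z + (n : ℂ)⁻¹ with hz1
  have hz1' : 0 < z1.im := by
    have : ((n : ℂ)⁻¹).im = 0 := by
      have h : (n : ℂ)⁻¹ = (((n : ℝ)⁻¹ : ℝ) : ℂ) := by push_cast; rfl
      rw [h, Complex.ofReal_im]
    rw [hz1, Complex.add_im, this, add_zero]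
    exact hz
  set v : Fin n → ℂ := Gx z1 g x with hv
  set b : ℂ := (n : ℂ)⁻¹ * FF z1 g x with hb
  have hv1 : (Am z1 g).mulVec v = xv x := by
    have h : v = (Gm z1 g).mulVec (xv x) := rfl
    rw [h, Matrix.mulVec_mulVec, Am_mul_Gm z1 g hz1', Matrix.one_mulVec]
  have h1 : (Am z (g + plant x)).mulVec v = (1 - b) • xv x := by
    ext i
    rw [Am_plant hn z g x v i, hv1]
    show xv x i - (sp (x i) : ℂ) * b = (1 - b) • xv x i
    unfold xv
    rw [smul_eq_mul]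
    ring
  have h2 : v = (1 - b) • (Gm z (g + plant x)).mulVec (xv x) := by
    rw [← Matrix.mulVec_smul, ← h1, Matrix.mulVec_mulVec, Gm_mul_Am z _ hz, Matrix.one_mulVec]
  have h3 : ∀ l, v l = (1 - b) * Gx z (g + plant x) x l := by
    intro l
    have := congrFun h2 l
    rw [Pi.smul_apply, smul_eq_mul] at this
    exact this
  have h4 : FF z1 g x = (1 - b) * FF z (g + plant x) x := by
    unfold FF
    rw [Finset.mul_sum]
    refine Finset.sum_congr rfl fun l _ => ?_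
    show v l * _ = _
    rw [h3 l]
    ring
  have h5 : b = (n : ℂ)⁻¹ * ((1 - b) * FF z (g + plant x) x) := by
    conv_lhs => rw [hb, h4]
  linear_combination -h5

/-- the numeric consequence -/
theorem planted_im (hn : 0 < n) {t : ℝ} (ht : 0 < t) (ht1 : t ≤ 1 / 20) {u z : ℂ}
    (hut : u.im = t) (hu : ‖u‖ ^ 2 = (1 + t) ^ 2 + t ^ 2) (hu1 : ‖u - 1‖ ^ 2 = 2 * t ^ 2)
    (hz : 0 < z.im) (g : Pairs n → ℝ) (x : Cfg n)
    (hb : ‖(n : ℂ)⁻¹ * FF (z + (n : ℂ)⁻¹) g x - u⁻¹‖ ≤ t / 10) :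
    1 / (6 * t) ≤ -((n : ℂ)⁻¹ * FF z (g + plant x) x).im := by
  have hsh := sherman hn z hz g x
  set b : ℂ := (n : ℂ)⁻¹ * FF (z + (n : ℂ)⁻¹) g x with hbdef
  set a : ℂ := (n : ℂ)⁻¹ * FF z (g + plant x) x with hadef
  have hN : 1 ≤ ‖u‖ ^ 2 := by rw [hu]; nlinarith
  have hN2 : ‖u‖ ^ 2 ≤ 6 / 5 := by rw [hu]; nlinarith
  have hu0 : u ≠ 0 := by
    intro h; rw [h] at hN; norm_num at hN
  have hun1 : 1 ≤ ‖u‖ := (one_le_sq_iff₀ (norm_nonneg _)).1 hN
  -- imaginary part of b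
  have him1 : (u⁻¹).im = -(t / ‖u‖ ^ 2) := by
    rw [Complex.inv_im, Complex.sq_norm, neg_div, hut]
  have him2 : |(b - u⁻¹).im| ≤ t / 10 := (Complex.abs_im_le_norm _).trans hb
  rw [Complex.sub_im, him1] at him2
  have hbim : b.im ≤ -(t / ‖u‖ ^ 2) + t / 10 := by
    have := (abs_le.1 him2).2
    linarith
  have hq : 5 / 6 * t ≤ t / ‖u‖ ^ 2 := by
    rw [le_div_iff₀ (by linarith)]
    nlinarith
  have hbim2 : b.im ≤ -(11 / 15 * t) := by linarith
  -- modulus of 1 - b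
  have hmod : ‖1 - b‖ ≤ ‖u - 1‖ + t / 10 := by
    have e1 : 1 - b = (1 - u⁻¹) - (b - u⁻¹) := by ring
    have e2 : ‖1 - u⁻¹‖ ≤ ‖u - 1‖ := by
      have e3 : 1 - u⁻¹ = (u - 1) * u⁻¹ := by field_simp
      rw [e3, norm_mul, norm_inv]
      exact mul_le_of_le_one_right (norm_nonneg _) (inv_le_one_of_one_le₀ hun1)
    rw [e1]
    exact (norm_sub_le _ _).trans (add_le_add e2 hb)
  have hs2 : ‖u - 1‖ ≤ 3 / 2 * t := by
    have : ‖u - 1‖ ^ 2 ≤ (3 / 2 * t) ^ 2 := by rw [hu1]; nlinarith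
    exact (abs_le_of_sq_le_sq' this (by positivity)).2
  have hmod2 : ‖1 - b‖ ≤ 8 / 5 * t := by linarith
  have hbne : 1 - b ≠ 0 := by
    intro h
    have h1 := congrArg Complex.im h
    rw [Complex.sub_im] at h1
    simp only [Complex.one_im, Complex.zero_im] at h1
    linarith
  have hpos : 0 < ‖1 - b‖ := norm_pos_iff.2 hbne
  -- a = -1 + (1 - b)⁻¹
  have ha : a = -1 + (1 - b)⁻¹ := by
    field_simp
    linear_combination hsh
  have haim : a.im = b.im / ‖1 - b‖ ^ 2 := by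
    rw [ha, Complex.add_im, Complex.inv_im, ← Complex.sq_norm, Complex.sub_im]
    simp
  rw [haim, ← neg_div, div_le_div_iff₀ (by positivity) (by positivity)]
  have h7 : ‖1 - b‖ ^ 2 ≤ (8 / 5 * t) ^ 2 := pow_le_pow_left₀ hpos.le hmod2 2
  nlinarith

end Vale.Agent.P150.H704
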