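import Mathlib
import Vale.Agent.P150.H704.Planted

open MeasureTheory ProbabilityTheory Filter Topology

/-! Shift of the spectral parameter by `1 / n`. -/

namespace Vale.Agent.P150.H704

open Vale.Agent.P150 Vale.Agent.P150.Cav Vale.Agent.P150.H185.Crit

variable {n : ℕ}

lemma inv_n_im : ((n : ℂ)⁻¹).im = 0 := by
  have h : (n : ℂ)⁻¹ = (((n : ℝ)⁻¹ : ℝ) : ℂ) := by push_cast; rfl
  rw [h, Complex.ofReal_im]

lemma norm_add_sq_le (a b : ℂ) : ‖a + b‖ ^ 2 ≤ 2 * ‖a‖ ^ 2 + 2 * ‖b‖ ^ 2 := by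
  have h1 := norm_add_le a b
  have h2 : ‖a + b‖ ^ 2 ≤ (‖a‖ + ‖b‖) ^ 2 := pow_le_pow_left₀ (norm_nonneg _) h1 2
  nlinarith [sq_nonneg (‖a‖ - ‖b‖)]

/-- **[D2a]** the imaginary part of `mm` at `z` and at `z + 1 / n` -/
theorem shift_mm (hn : 0 < n) (z : ℂ) (hz : 0 < z.im) (h1 : (z.im)⁻¹ * (n : ℝ)⁻¹ ≤ 1)
    (g : Pairs n → ℝ) : -(mm z g).im ≤ 4 * -(mm (z + (n : ℂ)⁻¹) g).im := by
  have hn' : (0 : ℝ) < n := by exact_mod_cast hn
  set z1 : ℂ := z + (n : ℂ)⁻¹ with hz1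
  have him : z1.im = z.im := by rw [hz1, Complex.add_im, inv_n_im, add_zero]
  have hz1' : 0 < z1.im := by rw [him]; exact hz
  have hcol : ∀ (w : ℂ) (k : Fin n), ∑ l, ‖Gm w g l k‖ ^ 2
      = nsq ((Gm w g).mulVec (Pi.single k 1)) := by
    intro w k
    unfold nsq
    refine Finset.sum_congr rfl fun l _ => ?_
    rw [Matrix.mulVec_single_one]
    rfl
  have hk : ∀ k : Fin n, ∑ l, ‖Gm z g l k‖ ^ 2 ≤ 4 * ∑ l, ‖Gm z1 g l k‖ ^ 2 := by
    intro k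
    rw [hcol, hcol]
    set v := (Gm z g).mulVec (Pi.single k 1) with hv
    set w := (Gm z1 g).mulVec (Pi.single k 1) with hw
    have e1 : (Am z1 g).mulVec w = Pi.single k 1 := by
      rw [hw, Matrix.mulVec_mulVec, Am_mul_Gm z1 g hz1', Matrix.one_mulVec]
    have e2 : (Am z g).mulVec w = Pi.single k 1 - (n : ℂ)⁻¹ • w := by
      ext i
      have h2 := congrFun e1 i
      rw [Am_mulVec] at h2
      rw [Am_mulVec, Pi.sub_apply, Pi.smul_apply, smul_eq_mul, ← h2, hz1]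
      ring
    have e3 : v = w + (n : ℂ)⁻¹ • (Gm z g).mulVec w := by
      have h2 : w = (Gm z g).mulVec (Pi.single k 1 - (n : ℂ)⁻¹ • w) := by
        rw [← e2, Matrix.mulVec_mulVec, Gm_mul_Am z g hz, Matrix.one_mulVec]
      rw [Matrix.mulVec_sub, Matrix.mulVec_smul, ← hv] at h2
      rw [← sub_eq_iff_eq_add]
      exact h2.symm
    have e4 : nsq ((Gm z g).mulVec w) ≤ ((z.im)⁻¹) ^ 2 * nsq w := (coer_im z g).nsq_inv_le hz w
    have e5 : nsq v ≤ 2 * nsq w + 2 * ((n : ℝ)⁻¹ ^ 2 * nsq ((Gm z g).mulVec w)) := by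
      rw [e3]
      unfold nsq
      rw [Finset.mul_sum, Finset.mul_sum, Finset.mul_sum, ← Finset.sum_add_distrib]
      refine Finset.sum_le_sum fun i _ => ?_
      refine (norm_add_sq_le _ _).trans (le_of_eq ?_)
      rw [Pi.smul_apply, smul_eq_mul, norm_mul, mul_pow]
      have : ‖(n : ℂ)⁻¹‖ = (n : ℝ)⁻¹ := by simp
      rw [this]
    have e6 : (n : ℝ)⁻¹ ^ 2 * nsq ((Gm z g).mulVec w) ≤ nsq w := by
      have h0 := nsq_nonneg w
      calc (n : ℝ)⁻¹ ^ 2 * nsq ((Gm z g).mulVec w)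
          ≤ (n : ℝ)⁻¹ ^ 2 * (((z.im)⁻¹) ^ 2 * nsq w) :=
            mul_le_mul_of_nonneg_left e4 (by positivity)
        _ = ((z.im)⁻¹ * (n : ℝ)⁻¹) ^ 2 * nsq w := by ring
        _ ≤ 1 * nsq w := mul_le_mul_of_nonneg_right
            (pow_le_one₀ (by positivity) h1) h0
        _ = nsq w := one_mul _
    linarith
  rw [neg_im_mm z hz, neg_im_mm z1 hz1', him]
  have h2 : ∑ l, ∑ k, ‖Gm z g l k‖ ^ 2 ≤ 4 * ∑ l, ∑ k, ‖Gm z1 g l k‖ ^ 2 := by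
    rw [Finset.sum_comm (f := fun l k => ‖Gm z g l k‖ ^ 2),
      Finset.sum_comm (f := fun l k => ‖Gm z1 g l k‖ ^ 2), Finset.mul_sum]
    exact Finset.sum_le_sum fun k _ => hk k
  calc z.im * ((n : ℝ)⁻¹ * ∑ l, ∑ k, ‖Gm z g l k‖ ^ 2)
      ≤ z.im * ((n : ℝ)⁻¹ * (4 * ∑ l, ∑ k, ‖Gm z1 g l k‖ ^ 2)) :=
        mul_le_mul_of_nonneg_left (mul_le_mul_of_nonneg_left h2 (by positivity)) hz.le
    _ = _ := by ring

end Vale.Agent.P150.H704
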