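import Mathlib
import Vale.Agent.P150.H704.Shift
import Vale.Agent.P150.H357.Bot

open MeasureTheory ProbabilityTheory Filter Topology

/-! Typical starts: the vector `G X_s` stays close to `G X_0`. -/

namespace Vale.Agent.P150.H704

open Vale.Agent.P150 Vale.Agent.P150.Cav Vale.Agent.P150.H185.Crit

section general

variable {n : ℕ} {J : Fin n → Fin n → ℝ} (b : Fin n → ℝ)

/-- autocorrelation of a function -/
theorem auto_ge (hJ : ∀ i j, J i j = J j i) (f : Cfg n → ℝ) {t : ℝ} (ht : 0 ≤ t) :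
    ex J b (fun x => f x ^ 2) - t * dir J b f f ≤ ex J b (fun x => f x * Low.Pt J b t f x) := by
  rw [Low.ex_mul_Pt b hJ f t]
  have hm0 : 0 ≤ ex J b (fun x => f x ^ 2) := Semi.ex_nonneg b fun x => sq_nonneg _
  have hd := Semi.dir_self_nonneg b hJ f
  rcases hm0.eq_or_lt with hm | hm
  · have h1 : 0 ≤ ex J b (fun x => Low.Pt J b (t / 2) f x ^ 2) :=
      Semi.ex_nonneg b fun x => sq_nonneg _
    have h2 := mul_nonneg ht hd
    linarith
  · have h1 := Low.second_moment_flow b hJ f hm (t / 2) (by linarith)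
    refine le_trans ?_ h1
    have h2 := Real.add_one_le_exp (-(2 * (dir J b f f / ex J b (fun x => f x ^ 2)) * (t / 2)))
    have h3 := mul_le_mul_of_nonneg_right h2 hm.le
    refine le_trans (le_of_eq ?_) h3
    field_simp
    ring

/-- mean square displacement of a function along the stationary chain -/
theorem displace (hJ : ∀ i j, J i j = J j i) (f : Cfg n → ℝ) {t : ℝ} (ht : 0 ≤ t) :
    ex J b (fun x => ∑ y, kernel J b t x y * (f y - f x) ^ 2) ≤ 2 * t * dir J b f f := by
  have h1 : ∀ x, ∑ y, kernel J b t x y * (f y - f x) ^ 2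
      = Low.Pt J b t (fun y => f y ^ 2) x + ((-2) * (f x * Low.Pt J b t f x) + f x ^ 2) := by
    intro x
    have hr := Semi.kernel_row J b t x
    unfold Low.Pt
    have e : ∀ y, kernel J b t x y * (f y - f x) ^ 2 = kernel J b t x y * f y ^ 2
        + ((-2 * f x) * (kernel J b t x y * f y) + f x ^ 2 * kernel J b t x y) := fun y => by ring
    simp only [e, Finset.sum_add_distrib, ← Finset.mul_sum]
    rw [hr]
    ring
  simp only [h1]
  rw [Semi.ex_add, Semi.ex_add, Semi.ex_smul]
  have h2 : ex J b (fun x => Low.Pt J b t (fun y => f y ^ 2) x) = ex J b (fun x => f x ^ 2) :=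
    Semi.ex_Pt b hJ t (fun y => f y ^ 2)
  rw [h2]
  have h3 := auto_ge b hJ f ht
  linarith

end general

variable {n : ℕ}

/-- mean square displacement of `G x` -/
theorem displace_G (z : ℂ) (hz : 0 < z.im) (hn : 0 < n) (β : ℝ) (g : Pairs n → ℝ) {s : ℝ}
    (hs : 0 ≤ s) :
    ex (skJ β g) (fun _ => 0) (fun x => ∑ y, kernel (skJ β g) (fun _ => 0) s x y
      * nsq (fun k => Gx z g y k - Gx z g x k))
      ≤ 2 * s * (n * ((z.im)⁻¹ * -(mm z g).im)) := by
  set J := skJ β g with hJdef
  have hJ : ∀ i j, J i j = J j i := Asm.skJ_symm β g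
  rw [← frob_eq z hz hn g]
  -- the two families of linear functions
  set fr : Fin n → Cfg n → ℝ := fun k x => ∑ l, (Gm z g k l).re * sp (x l) with hfr
  set fi : Fin n → Cfg n → ℝ := fun k x => ∑ l, (Gm z g k l).im * sp (x l) with hfi
  have hre : ∀ k x, (Gx z g x k).re = fr k x := by
    intro k x
    unfold Gx
    rw [Complex.re_sum]
    refine Finset.sum_congr rfl fun l _ => ?_
    rw [Complex.mul_re, Complex.ofReal_re, Complex.ofReal_im, mul_zero, sub_zero]
  have him : ∀ k x, (Gx z g x k).im = fi k x := by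
    intro k x
    unfold Gx
    rw [Complex.im_sum]
    refine Finset.sum_congr rfl fun l _ => ?_
    rw [Complex.mul_im, Complex.ofReal_re, Complex.ofReal_im, mul_zero, zero_add]
  have h1 : ∀ x y, nsq (fun k => Gx z g y k - Gx z g x k)
      = ∑ k, ((fr k y - fr k x) ^ 2 + (fi k y - fi k x) ^ 2) := by
    intro x y
    unfold nsq
    refine Finset.sum_congr rfl fun k _ => ?_
    rw [Complex.sq_norm, Complex.normSq_apply, Complex.sub_re, Complex.sub_im, hre, hre, him, him]
    ring
  have h2 : ∀ x, ∑ y, kernel J (fun _ => 0) s x y * nsq (fun k => Gx z g y k - Gx z g x k)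
      = ∑ k, (∑ y, kernel J (fun _ => 0) s x y * (fr k y - fr k x) ^ 2
        + ∑ y, kernel J (fun _ => 0) s x y * (fi k y - fi k x) ^ 2) := by
    intro x
    have e : ∀ k, (∑ y, kernel J (fun _ => 0) s x y * (fr k y - fr k x) ^ 2
        + ∑ y, kernel J (fun _ => 0) s x y * (fi k y - fi k x) ^ 2)
        = ∑ y, kernel J (fun _ => 0) s x y * ((fr k y - fr k x) ^ 2 + (fi k y - fi k x) ^ 2) := by
      intro k
      rw [← Finset.sum_add_distrib]
      exact Finset.sum_congr rfl fun y _ => by ring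
    simp only [e]
    rw [Finset.sum_comm]
    refine Finset.sum_congr rfl fun y _ => ?_
    rw [h1, Finset.mul_sum]
  simp only [h2]
  rw [Poinc.ex_sum]
  have h3 : ∀ k, ex J (fun _ => 0) (fun x =>
      (∑ y, kernel J (fun _ => 0) s x y * (fr k y - fr k x) ^ 2
        + ∑ y, kernel J (fun _ => 0) s x y * (fi k y - fi k x) ^ 2))
      ≤ 2 * s * ∑ l, ‖Gm z g k l‖ ^ 2 := by
    intro k
    rw [Semi.ex_add]
    have a1 := displace (fun _ => 0) hJ (fr k) hs
    have a2 := displace (fun _ => 0) hJ (fi k) hs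
    have b1 : dir J (fun _ => 0) (fr k) (fr k) ≤ ∑ l, (Gm z g k l).re ^ 2 :=
      Poinc.dir_lin_le J (fun _ => 0) hJ fun l => (Gm z g k l).re
    have b2 : dir J (fun _ => 0) (fi k) (fi k) ≤ ∑ l, (Gm z g k l).im ^ 2 :=
      Poinc.dir_lin_le J (fun _ => 0) hJ fun l => (Gm z g k l).im
    have c1 : ∑ l, ‖Gm z g k l‖ ^ 2 = ∑ l, (Gm z g k l).re ^ 2 + ∑ l, (Gm z g k l).im ^ 2 := by
      rw [← Finset.sum_add_distrib]
      refine Finset.sum_congr rfl fun l _ => ?_
      rw [Complex.sq_norm, Complex.normSq_apply]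
      ring
    rw [c1]
    have d1 := mul_le_mul_of_nonneg_left b1 (by linarith : 0 ≤ 2 * s)
    have d2 := mul_le_mul_of_nonneg_left b2 (by linarith : 0 ≤ 2 * s)
    linarith
  refine (Finset.sum_le_sum fun k _ => h3 k).trans (le_of_eq ?_)
  rw [← Finset.mul_sum]

lemma Gx_neg (z : ℂ) (g : Pairs n → ℝ) (x : Cfg n) (k : Fin n) :
    Gx z g (H357.neg x) k = -Gx z g x k := by
  unfold Gx H357.neg
  rw [← Finset.sum_neg_distrib]
  refine Finset.sum_congr rfl fun l _ => ?_
  rw [H357.sp_not]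
  push_cast
  ring

/-- the half space of configurations correlated with `G x` -/
noncomputable def hs (z : ℂ) (g : Pairs n → ℝ) (x y : Cfg n) : ℝ :=
  if 0 < ∑ k, ((Gx z g x k).re * (Gx z g y k).re + (Gx z g x k).im * (Gx z g y k).im) then 1 else 0

lemma hs01 (z : ℂ) (g : Pairs n → ℝ) (x y : Cfg n) : hs z g x y = 0 ∨ hs z g x y = 1 := by
  unfold hs; split_ifs <;> simp

lemma ex_hs (z : ℂ) (β : ℝ) (g : Pairs n → ℝ) (x : Cfg n) :
    ex (skJ β g) (fun _ => 0) (hs z g x) ≤ 1 / 2 := by
  have h1 := H357.ex_neg (J := skJ β g) (hs z g x)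
  have h2 : ex (skJ β g) (fun _ => 0) (fun y => hs z g x y + hs z g x (H357.neg y)) ≤ 1 := by
    have h3 : ex (skJ β g) (fun _ => 0) (fun _ => (1 : ℝ)) = 1 := Semi.ex_const _ 1
    rw [← h3]
    refine Semi.ex_mono _ fun y => ?_
    unfold hs
    have e : ∑ k, ((Gx z g x k).re * (Gx z g (H357.neg y) k).re
        + (Gx z g x k).im * (Gx z g (H357.neg y) k).im)
        = -∑ k, ((Gx z g x k).re * (Gx z g y k).re + (Gx z g x k).im * (Gx z g y k).im) := by
      rw [← Finset.sum_neg_distrib]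
      refine Finset.sum_congr rfl fun k _ => ?_
      rw [Gx_neg, Complex.neg_re, Complex.neg_im]
      ring
    rw [e]
    split_ifs <;> first | (exfalso; linarith) | norm_num
  rw [Semi.ex_add, h1] at h2
  linarith

/-- outside the half space the displacement is at least `|G x|²` -/
lemma nsq_le_of_hs (z : ℂ) (g : Pairs n → ℝ) (x y : Cfg n) :
    (1 - hs z g x y) * nsq (Gx z g x) ≤ nsq (fun k => Gx z g y k - Gx z g x k) := by
  unfold hs
  split_ifs with h
  · rw [sub_self, zero_mul]
    exact nsq_nonneg _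
  · rw [sub_zero, one_mul]
    push Not at h
    have e : nsq (fun k => Gx z g y k - Gx z g x k)
        = nsq (Gx z g y) + nsq (Gx z g x)
          - 2 * ∑ k, ((Gx z g x k).re * (Gx z g y k).re + (Gx z g x k).im * (Gx z g y k).im) := by
      unfold nsq
      rw [Finset.mul_sum, ← Finset.sum_add_distrib, ← Finset.sum_sub_distrib]
      refine Finset.sum_congr rfl fun k _ => ?_
      rw [Complex.sq_norm, Complex.sq_norm, Complex.sq_norm, Complex.normSq_apply,
        Complex.normSq_apply, Complex.normSq_apply, Complex.sub_re, Complex.sub_im]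
      ring
    rw [e]
    have := nsq_nonneg (Gx z g y)
    linarith

/-- total variation from one start -/
theorem tv_start (z : ℂ) (β : ℝ) (g : Pairs n → ℝ) {s Q : ℝ} (hs0 : 0 ≤ s) (hQ : 0 < Q)
    (x : Cfg n) (hx : Q ≤ nsq (Gx z g x)) :
    1 / 2 - (∑ y, kernel (skJ β g) (fun _ => 0) s x y
      * nsq (fun k => Gx z g y k - Gx z g x k)) / Q ≤ tvDist (skJ β g) (fun _ => 0) s x := by
  have h1 := H357.tv_ge (J := skJ β g) (fun _ => 0) (f := hs z g x) (hs01 z g x) s x
  have h2 := ex_hs z β g x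
  have h3 : 1 - Low.Pt (skJ β g) (fun _ => 0) s (hs z g x) x
      ≤ (∑ y, kernel (skJ β g) (fun _ => 0) s x y
        * nsq (fun k => Gx z g y k - Gx z g x k)) / Q := by
    rw [le_div_iff₀ hQ]
    have hr := Semi.kernel_row (skJ β g) (fun _ => 0) s x
    have e : 1 - Low.Pt (skJ β g) (fun _ => 0) s (hs z g x) x
        = ∑ y, kernel (skJ β g) (fun _ => 0) s x y * (1 - hs z g x y) := by
      unfold Low.Pt
      simp only [mul_sub, mul_one, Finset.sum_sub_distrib]
      rw [hr]
    rw [e, Finset.sum_mul]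
    refine Finset.sum_le_sum fun y _ => ?_
    have hk := Semi.kernel_nonneg (skJ β g) (fun _ => 0) hs0 x y
    rw [mul_assoc]
    refine mul_le_mul_of_nonneg_left ?_ hk
    refine le_trans ?_ (nsq_le_of_hs z g x y)
    refine mul_le_mul_of_nonneg_left hx ?_
    rcases hs01 z g x y with h | h <;> rw [h] <;> norm_num
  linarith

/-- **deterministic statement**: typical starts are slow -/
theorem typ_det (z : ℂ) (hz : 0 < z.im) (hn : 0 < n) (β : ℝ) (g : Pairs n → ℝ) {s t η : ℝ}
    (hs0 : 0 ≤ s) (ht : 0 < t) (hη : 0 < η) (hm : -(mm z g).im ≤ 8 * t) :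
    ex (skJ β g) (fun _ => 0)
        (fun x => if tvDist (skJ β g) (fun _ => 0) s x < 1 / 2 - η then 1 else 0)
      ≤ ex (skJ β g) (fun _ => 0)
          (fun x => if -((n : ℂ)⁻¹ * FF z g x).im < 1 / (6 * t) then 1 else 0)
        + 96 * s * t ^ 2 / η := by
  have hn' : (0 : ℝ) < n := by exact_mod_cast hn
  set Q : ℝ := n / (6 * t * z.im) with hQ
  have hQ0 : 0 < Q := by positivity
  set D : Cfg n → ℝ := fun x => ∑ y, kernel (skJ β g) (fun _ => 0) s x y
      * nsq (fun k => Gx z g y k - Gx z g x k) with hD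
  have hD0 : ∀ x, 0 ≤ D x := fun x => Finset.sum_nonneg fun y _ =>
    mul_nonneg (Semi.kernel_nonneg _ _ hs0 x y) (nsq_nonneg _)
  have hDex : ex (skJ β g) (fun _ => 0) D ≤ 2 * s * (n * ((z.im)⁻¹ * (8 * t))) :=
    (displace_G z hz hn β g hs0).trans (mul_le_mul_of_nonneg_left
      (mul_le_mul_of_nonneg_left (mul_le_mul_of_nonneg_left hm (by positivity)) hn'.le)
      (by linarith))
  have hpt : ∀ x, (if tvDist (skJ β g) (fun _ => 0) s x < 1 / 2 - η then (1 : ℝ) else 0)
      ≤ (if -((n : ℂ)⁻¹ * FF z g x).im < 1 / (6 * t) then 1 else 0) + (η * Q)⁻¹ * D x := by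
    intro x
    have hc : 0 ≤ (η * Q)⁻¹ * D x := mul_nonneg (by positivity) (hD0 x)
    by_cases h1 : tvDist (skJ β g) (fun _ => 0) s x < 1 / 2 - η
    · rw [if_pos h1]
      by_cases h2 : -((n : ℂ)⁻¹ * FF z g x).im < 1 / (6 * t)
      · rw [if_pos h2]; linarith
      · rw [if_neg h2, zero_add]
        push Not at h2
        -- lower bound on |G x|²
        have h3 : -((n : ℂ)⁻¹ * FF z g x).im = (n : ℝ)⁻¹ * (z.im * nsq (Gx z g x)) := by
          have h4 := im_Gx z hz g x
          have h5 : (n : ℂ)⁻¹ = (((n : ℝ)⁻¹ : ℝ) : ℂ) := by push_cast; rfl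
          rw [h5, Complex.im_ofReal_mul, ← h4]
          unfold FF
          ring
        have h6 : Q ≤ nsq (Gx z g x) := by
          rw [h3, div_le_iff₀ (by positivity)] at h2
          rw [hQ, div_le_iff₀ (by positivity)]
          have h7 : (n : ℝ)⁻¹ * (z.im * nsq (Gx z g x)) * (6 * t)
              = (nsq (Gx z g x) * (6 * t * z.im)) / n := by field_simp
          rw [h7, le_div_iff₀ hn', one_mul] at h2
          exact h2
        have h8 := tv_start z β g hs0 hQ0 x h6
        have h9 : η ≤ D x / Q := by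
          have : 1 / 2 - D x / Q ≤ tvDist (skJ β g) (fun _ => 0) s x := h8
          linarith
        rw [le_div_iff₀ hQ0] at h9
        rw [inv_mul_eq_div, le_div_iff₀ (by positivity), one_mul]
        exact h9
    · rw [if_neg h1]
      have : (0 : ℝ) ≤ if -((n : ℂ)⁻¹ * FF z g x).im < 1 / (6 * t) then 1 else 0 := by
        split_ifs <;> norm_num
      linarith
  refine (Semi.ex_mono _ hpt).trans ?_
  rw [Semi.ex_add, Semi.ex_smul]
  have hfin : (η * Q)⁻¹ * ex (skJ β g) (fun _ => 0) D ≤ 96 * s * t ^ 2 / η := by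
    refine (mul_le_mul_of_nonneg_left hDex (by positivity)).trans (le_of_eq ?_)
    rw [hQ]
    field_simp
    ring
  linarith

end Vale.Agent.P150.H704
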