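import Mathlib
import Vale.Agent.P150.H704.Stay
import Vale.Agent.P150.H581.B0
import Vale.Agent.P150.H464C.LawPow

open MeasureTheory ProbabilityTheory Filter Topology

/-! Probability that a small Gibbs mass of configurations is bad at `β = 1`. -/

namespace Vale.Agent.P150.H704

open Vale.Agent.P150 Vale.Agent.P150.Cav Vale.Agent.P150.H185.Crit

variable {n : ℕ}

/-- the event that the partition function is small -/
def lowZ (n : ℕ) (s : ℝ) : Set (Pairs n → ℝ) :=
  {g | ∑ x : Cfg n, Real.exp (energy (skJ 1 g) 0 x)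
    < Real.exp (-s) * (2 ^ n * Real.exp (((n : ℝ) - 1) / 4))}

/-- transfer in probability -/
theorem mass_prob (hn : 1 ≤ n) (S : Cfg n → Set (Pairs n → ℝ)) (hS : ∀ x, MeasurableSet (S x))
    (s : ℝ) {ρ : ℝ} (hρ : 0 < ρ) :
    (disorder n).real {g | ρ < ∑ x, Cav.pw 1 g x * (S x).indicator (1 : (Pairs n → ℝ) → ℝ) g}
      ≤ (disorder n).real (lowZ n s)
        + ρ⁻¹ * (Real.exp s * ((2 ^ n)⁻¹ * ∑ x, (disorder n).real {g | g + plant x ∈ S x})) := by
  have hprob : IsProbabilityMeasure (disorder n) := by unfold disorder; infer_instance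
  set a : ℝ := Real.exp (-s) * (2 ^ n * Real.exp (((n : ℝ) - 1) / 4)) with ha
  have ha0 : 0 < a := by positivity
  set Y : (Pairs n → ℝ) → ℝ := fun g => ∑ x : Cfg n, a⁻¹ * (Real.exp (energy (skJ 1 g) 0 x)
      * (S x).indicator (1 : (Pairs n → ℝ) → ℝ) g) with hY
  have hi2 : Integrable Y (disorder n) :=
    integrable_finsetSum _ fun x _ => (integrable_one_conf x (hS x)).const_mul _
  have hY0 : ∀ g, 0 ≤ Y g := fun g => Finset.sum_nonneg fun x _ =>
    mul_nonneg (inv_nonneg.2 ha0.le) (mul_nonneg (Real.exp_pos _).le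
      (Set.indicator_nonneg (fun _ _ => zero_le_one) _))
  have hYint : ∫ g, Y g ∂(disorder n)
      = Real.exp s * ((2 ^ n)⁻¹ * ∑ x, (disorder n).real {g | g + plant x ∈ S x}) := by
    rw [hY, integral_finsetSum _ fun x _ => (integrable_one_conf x (hS x)).const_mul _]
    rw [Finset.mul_sum, Finset.mul_sum]
    refine Finset.sum_congr rfl fun x _ => ?_
    rw [integral_const_mul, one_conf hn x (hS x), ha, Real.exp_neg]
    field_simp
  have hsub : {g | ρ < ∑ x, Cav.pw 1 g x * (S x).indicator (1 : (Pairs n → ℝ) → ℝ) g}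
      ⊆ lowZ n s ∪ {g | ρ ≤ Y g} := by
    intro g hg
    by_cases hB : g ∈ lowZ n s
    · exact Or.inl hB
    · right
      have hZ : a ≤ ∑ y : Cfg n, Real.exp (energy (skJ 1 g) 0 y) := not_lt.1 hB
      have h1 : ∑ x, Cav.pw 1 g x * (S x).indicator (1 : (Pairs n → ℝ) → ℝ) g ≤ Y g := by
        refine Finset.sum_le_sum fun x _ => ?_
        rw [← mul_assoc]
        refine mul_le_mul_of_nonneg_right ?_ (Set.indicator_nonneg (fun _ _ => zero_le_one) _)
        unfold Cav.pw gibbs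
        rw [div_eq_inv_mul]
        exact mul_le_mul_of_nonneg_right (inv_anti₀ ha0 hZ) (Real.exp_pos _).le
      exact le_trans (le_of_lt hg) h1
  refine (measureReal_mono hsub).trans ((measureReal_union_le _ _).trans ?_)
  have hM := mul_meas_ge_le_integral_of_nonneg (μ := disorder n)
    (Eventually.of_forall hY0) hi2 ρ
  rw [hYint] at hM
  have h2 : (disorder n).real {g | ρ ≤ Y g}
      ≤ ρ⁻¹ * (Real.exp s * ((2 ^ n)⁻¹ * ∑ x, (disorder n).real {g | g + plant x ∈ S x})) := by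
    rw [inv_mul_eq_div, le_div_iff₀ hρ, mul_comm]
    exact hM
  linarith

/-- the bad configurations -/
noncomputable def bad (z : ℂ) (t : ℝ) (g : Pairs n → ℝ) (x : Cfg n) : ℝ :=
  if -((n : ℂ)⁻¹ * FF z g x).im < 1 / (6 * t) then 1 else 0

/-- all estimates for one `n`, one `t` and one `p` -/
theorem ev_prob (hn : 1 ≤ n) {t : ℝ} (ht : 0 < t) (ht1 : t ≤ 1 / 20) {u z : ℂ} (hut : u.im = t)
    (hu : ‖u‖ ^ 2 = (1 + t) ^ 2 + t ^ 2) (hu1 : ‖u - 1‖ ^ 2 = 2 * t ^ 2) (hun : 1 ≤ ‖u‖)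
    (hus : ‖u - u⁻¹‖ ≤ 4 * u.im) (hz : z + (n : ℂ)⁻¹ = u + u⁻¹) (hzi : 0 < z.im) (p : ℕ)
    (hp : 1 ≤ p) (hbig : 48 * p * ((z.im)⁻¹ * (n : ℝ)⁻¹) ≤ t) (s : ℝ) {ρ : ℝ} (hρ : 0 < ρ) :
    (disorder n).real {g : Pairs n → ℝ | ¬ (-(mm z g).im ≤ 8 * t ∧
        ex (skJ 1 g) (fun _ => 0) (bad z t g) ≤ ρ)}
      ≤ (disorder n).real (lowZ n s)
        + ρ⁻¹ * (Real.exp s * (614400 * (p : ℝ) ^ 2 * ((z.im)⁻¹ * (n : ℝ)⁻¹) / t) ^ p)
        + 64 * ((z.im)⁻¹ * (n : ℝ)⁻¹) ^ 2 / t ^ 2 := by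
  have hprob : IsProbabilityMeasure (disorder n) := by unfold disorder; infer_instance
  have hn0 : 0 < n := hn
  have hn' : (0 : ℝ) < n := by exact_mod_cast hn0
  set z1 : ℂ := z + (n : ℂ)⁻¹ with hz1
  have him : z1.im = z.im := by rw [hz1, Complex.add_im, inv_n_im, add_zero]
  have hz1i : 0 < z1.im := by rw [him]; exact hzi
  set a : ℝ := (z.im)⁻¹ * (n : ℝ)⁻¹ with ha
  have ha0 : 0 < a := by positivity
  have hp' : (1 : ℝ) ≤ p := by exact_mod_cast hp
  have ha24 : 24 * a ≤ t := by nlinarith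
  have ha1 : a ≤ 1 := by linarith
  have hui : 0 < u.im := by rw [hut]; exact ht
  -- bad configurations
  set S : Cfg n → Set (Pairs n → ℝ) :=
    fun x => {g | -((n : ℂ)⁻¹ * FF z g x).im < 1 / (6 * t)} with hSdef
  have hS : ∀ x, MeasurableSet (S x) := by
    intro x
    have hc : Continuous fun g : Pairs n → ℝ => -((n : ℂ)⁻¹ * FF z g x).im :=
      (Complex.continuous_im.comp (continuous_const.mul (continuous_FF z hzi x))).neg
    exact hc.measurable measurableSet_Iio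
  have h1 := mass_prob hn S hS s hρ
  have h2 : ((2 : ℝ) ^ n)⁻¹ * ∑ x : Cfg n, (disorder n).real {g | g + plant x ∈ S x}
      ≤ (614400 * (p : ℝ) ^ 2 * a / t) ^ p := by
    have hb := H581.b0_prob u hui hun z1 hz1i hn0 p hp (by rw [him, hut]; exact hbig)
      (by
        have := H464C.local_law_pow u hui hun hus z1 hz hz1i hn0 p
          (by rw [him, hut]; exact hbig)
        exact this)
    rw [him, hut] at hb
    refine le_trans (mul_le_mul_of_nonneg_left (Finset.sum_le_sum fun x _ => ?_)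
      (by positivity)) hb
    refine measureReal_mono fun g hg => ?_
    have hg' : -((n : ℂ)⁻¹ * FF z (g + plant x) x).im < 1 / (6 * t) := hg
    show t / 10 ≤ ‖(n : ℂ)⁻¹ * FF z1 g x - u⁻¹‖
    by_contra hcon
    push Not at hcon
    have h3 := planted_im hn0 ht ht1 hut hu hu1 hzi g x hcon.le
    linarith
  -- the trace
  have h4 : (disorder n).real {g : Pairs n → ℝ | t ≤ ‖mm z1 g - u⁻¹‖} ≤ 64 * a ^ 2 / t ^ 2 := by
    have hl := local_law u hui hun hus z1 hz hz1i hn0 (by rw [him, hut]; exact ha24)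
    rw [him] at hl
    have hcm : Continuous fun g : Pairs n → ℝ => ‖mm z1 g - u⁻¹‖ ^ 2 :=
      ((continuous_mm z1 hz1i).sub continuous_const).norm.pow 2
    have hint : Integrable (fun g : Pairs n → ℝ => ‖mm z1 g - u⁻¹‖ ^ 2) (disorder n) := by
      refine Integrable.of_bound hcm.measurable.aestronglyMeasurable
        (((z1.im)⁻¹ + ‖u⁻¹‖) ^ 2) (Eventually.of_forall fun g => ?_)
      rw [Real.norm_of_nonneg (by positivity)]
      refine pow_le_pow_left₀ (norm_nonneg _) ?_ 2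
      exact (norm_sub_le _ _).trans (add_le_add (norm_mm_le z1 hz1i hn0 g) le_rfl)
    have hM := mul_meas_ge_le_integral_of_nonneg (μ := disorder n)
      (f := fun g : Pairs n → ℝ => ‖mm z1 g - u⁻¹‖ ^ 2)
      (Eventually.of_forall fun g => by positivity) hint (t ^ 2)
    have hsub : {g : Pairs n → ℝ | t ≤ ‖mm z1 g - u⁻¹‖}
        ⊆ {g | t ^ 2 ≤ ‖mm z1 g - u⁻¹‖ ^ 2} := fun g hg => pow_le_pow_left₀ ht.le hg 2
    have h5 := measureReal_mono (μ := disorder n) hsub
    rw [le_div_iff₀ (by positivity), mul_comm]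
    refine le_trans (mul_le_mul_of_nonneg_left h5 (by positivity)) (hM.trans ?_)
    exact hl
  -- the union
  have hsub : {g : Pairs n → ℝ | ¬ (-(mm z g).im ≤ 8 * t ∧
        ex (skJ 1 g) (fun _ => 0) (bad z t g) ≤ ρ)}
      ⊆ {g | ρ < ∑ x, Cav.pw 1 g x * (S x).indicator (1 : (Pairs n → ℝ) → ℝ) g}
        ∪ {g : Pairs n → ℝ | t ≤ ‖mm z1 g - u⁻¹‖} := by
    intro g hg
    by_contra hcon
    apply hg
    simp only [Set.mem_union, not_or] at hcon
    obtain ⟨hc1, hc2⟩ := hcon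
    have hc1' : ¬ ρ < ∑ x, Cav.pw 1 g x * (S x).indicator (1 : (Pairs n → ℝ) → ℝ) g := hc1
    have hc2' : ¬ t ≤ ‖mm z1 g - u⁻¹‖ := hc2
    push Not at hc1' hc2'
    constructor
    · have h5 := shift_mm hn0 z hzi ha1 g
      have h6 : -(mm z1 g).im ≤ t + t := by
        have h7 := Complex.abs_im_le_norm (mm z1 g - u⁻¹)
        have h8 := neg_abs_le (mm z1 g - u⁻¹).im
        have h9 : (u⁻¹).im = -(t / ‖u‖ ^ 2) := by
          rw [Complex.inv_im, Complex.sq_norm, neg_div, hut]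
        rw [Complex.sub_im, h9] at h8
        rw [Complex.sub_im, h9] at h7
        have h10 : t / ‖u‖ ^ 2 ≤ t := div_le_self ht.le (one_le_pow₀ hun)
        linarith
      linarith
    · refine le_trans (le_of_eq ?_) hc1'
      unfold ex bad Cav.pw
      refine Finset.sum_congr rfl fun x _ => ?_
      have e0 : gibbs (skJ 1 g) (fun _ => 0) x = gibbs (skJ 1 g) 0 x := rfl
      rw [e0]
      congr 1
  refine (measureReal_mono hsub).trans ((measureReal_union_le _ _).trans ?_)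
  have h11 : ρ⁻¹ * (Real.exp s * ((2 ^ n)⁻¹ * ∑ x, (disorder n).real {g | g + plant x ∈ S x}))
      ≤ ρ⁻¹ * (Real.exp s * (614400 * (p : ℝ) ^ 2 * a / t) ^ p) :=
    mul_le_mul_of_nonneg_left (mul_le_mul_of_nonneg_left h2 (Real.exp_pos _).le) (by positivity)
  linarith

end Vale.Agent.P150.H704
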