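import Mathlib
import Vale.Agent.P150.H704.Typ
import Vale.Agent.P150.H464C.PolyLog

open MeasureTheory ProbabilityTheory Filter Topology

/-! Typical starts are slow at the critical point. -/

namespace Vale.Agent.P150.H704

open Vale.Agent.P150 Vale.Agent.P150.Cav Vale.Agent.P150.H185.Crit
open Vale.Agent.P150.H464C (tt tt_cube tendsto_tt low_Z_log)
open Vale.Agent.P146.H464C (tendsto_log_nat)

/-- the good event at the scale `tt n` -/
def Ev (n : ℕ) : Set (Pairs n → ℝ) :=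
  {g | ∃ z : ℂ, 0 < z.im ∧ -(mm z g).im ≤ 8 * tt n ∧
    ex (skJ 1 g) (fun _ => 0) (bad z (tt n) g) ≤ Real.exp (-(Real.log n ^ 3))}

theorem ev_tendsto : Tendsto (fun n : ℕ => (disorder n).real (Ev n)ᶜ) atTop (𝓝 0) := by
  have hL := tendsto_log_nat
  have hpow : ∀ k : ℕ, k ≠ 0 → Tendsto (fun n : ℕ => Real.log n ^ k) atTop atTop := fun k hk =>
    (tendsto_pow_atTop hk).comp hL
  have hexp : Tendsto (fun n : ℕ => Real.exp (-(1400 * Real.log n ^ 3))) atTop (𝓝 0) :=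
    Real.tendsto_exp_atBot.comp (tendsto_neg_atTop_atBot.comp
      ((hpow 3 (by norm_num)).const_mul_atTop (by norm_num)))
  have hinv : Tendsto (fun n : ℕ => (30000 ^ 3 * Real.log n ^ 6 : ℝ)⁻¹) atTop (𝓝 0) :=
    tendsto_inv_atTop_zero.comp ((hpow 6 (by norm_num)).const_mul_atTop (by norm_num))
  have hrhs : Tendsto (fun n : ℕ => (disorder n).real (lowZ n (1401 * Real.log n ^ 3)) +
      Real.exp (-(1400 * Real.log n ^ 3)) +
      64 * ((30000 ^ 3 * Real.log n ^ 6 : ℝ)⁻¹) ^ 2) atTop (𝓝 0) := by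
    have hlz : Tendsto (fun n : ℕ => (disorder n).real (lowZ n (1401 * Real.log n ^ 3))) atTop
        (𝓝 0) := low_Z_log
    have h1 := ((hlz.add hexp).add ((hinv.pow 2).const_mul 64))
    simpa using h1
  refine tendsto_of_tendsto_of_tendsto_of_le_of_le' tendsto_const_nhds hrhs
    (Eventually.of_forall fun n => measureReal_nonneg) ?_
  filter_upwards [eventually_gt_atTop 0, tendsto_tt.eventually_le_const (show (0 : ℝ) < 1 / 20 by
    norm_num), hL.eventually_ge_atTop 1] with n hn ht1 hL1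
  have hprob : IsProbabilityMeasure (disorder n) := by unfold disorder; infer_instance
  have hn' : (0 : ℝ) < n := by exact_mod_cast hn
  have hcube := tt_cube hn
  set L : ℝ := Real.log n with hLdef
  have hL0 : 0 < L := by linarith only [hL1]
  obtain ⟨t, ht⟩ : ∃ t : ℝ, t = tt n := ⟨_, rfl⟩
  have htp : 0 < t := by
    rw [ht]; unfold tt
    have : 0 < (n : ℝ) ^ (-(1 / 3 : ℝ)) := Real.rpow_pos_of_pos hn' _
    positivity
  rw [← ht] at ht1 hcube
  obtain ⟨u, huim, hnu, hnd, hu1, hus, hzim⟩ := param htp (by linarith) 1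
  set z1 : ℂ := u + u⁻¹ with hz1
  set z : ℂ := z1 - (n : ℂ)⁻¹ with hz
  have hz1z : z + (n : ℂ)⁻¹ = z1 := by rw [hz]; ring
  have hzz : z.im = z1.im := by rw [hz, Complex.sub_im, inv_n_im, sub_zero]
  have hz1p : 0 < z1.im := lt_of_lt_of_le (by positivity) hzim
  have hzp : 0 < z.im := by rw [hzz]; exact hz1p
  have hnd' : ‖u - 1‖ ^ 2 = 2 * t ^ 2 := by
    have : ((1 : ℝ) : ℂ) = 1 := Complex.ofReal_one
    rw [this] at hnd
    rw [hnd]; ring
  -- the number of moments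
  obtain ⟨p, hp⟩ : ∃ p : ℕ, p = ⌈2802 * L ^ 3⌉₊ := ⟨_, rfl⟩
  have hL3 : 1 ≤ L ^ 3 := one_le_pow₀ hL1
  have hp1 : 1 ≤ p := by rw [hp]; exact Nat.one_le_ceil_iff.2 (by positivity)
  have hp2 : 2802 * L ^ 3 ≤ p := by rw [hp]; exact Nat.le_ceil _
  have hp3 : (p : ℝ) ≤ 2803 * L ^ 3 := by
    have := (Nat.ceil_lt_add_one (show 0 ≤ 2802 * L ^ 3 by positivity)).le
    rw [← hp] at this
    linarith only [this, hL3]
  have hLne : L ≠ 0 := hL0.ne'
  -- the size of `a`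
  set a : ℝ := (z.im)⁻¹ * (n : ℝ)⁻¹ with ha
  have ha0 : 0 ≤ a := by positivity
  have hat : a / t ≤ (30000 ^ 3 * L ^ 6)⁻¹ := by
    have h1 : (z.im)⁻¹ ≤ (t ^ 2)⁻¹ := inv_anti₀ (by positivity) (by rw [hzz]; exact hzim)
    rw [← hcube]
    calc a / t ≤ (t ^ 2)⁻¹ * (n : ℝ)⁻¹ / t :=
          div_le_div_of_nonneg_right (mul_le_mul_of_nonneg_right h1 (by positivity)) htp.le
      _ = (n * t ^ 3)⁻¹ := by field_simp
  have hat0 : 0 ≤ a / t := div_nonneg ha0 htp.le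
  have hp48 : 48 * (p : ℝ) * a ≤ t := by
    have h1 : 48 * (p : ℝ) * (a / t) ≤ 1 := by
      calc 48 * (p : ℝ) * (a / t) ≤ 48 * (2803 * L ^ 3) * (30000 ^ 3 * L ^ 6)⁻¹ :=
            mul_le_mul (by linarith only [hp3]) hat hat0 (by positivity)
        _ = 48 * 2803 / 30000 ^ 3 * (L ^ 3)⁻¹ := by field_simp
        _ ≤ 48 * 2803 / 30000 ^ 3 * 1 :=
            mul_le_mul_of_nonneg_left (inv_le_one_of_one_le₀ hL3) (by norm_num)
        _ ≤ 1 := by norm_num
    calc 48 * (p : ℝ) * a = (48 * (p : ℝ) * (a / t)) * t := by field_simp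
      _ ≤ 1 * t := mul_le_mul_of_nonneg_right h1 htp.le
      _ = t := one_mul t
  have h2 : 614400 * (p : ℝ) ^ 2 * a / t ≤ Real.exp (-1) := by
    rw [mul_div_assoc]
    have h3 : (p : ℝ) ^ 2 ≤ (2803 * L ^ 3) ^ 2 := pow_le_pow_left₀ (by positivity) hp3 2
    calc 614400 * (p : ℝ) ^ 2 * (a / t) ≤
          614400 * (2803 * L ^ 3) ^ 2 * (30000 ^ 3 * L ^ 6)⁻¹ :=
          mul_le_mul (by linarith only [h3]) hat hat0 (by positivity)
      _ = 614400 * 2803 ^ 2 / 30000 ^ 3 := by field_simp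
      _ ≤ 1 / 3 := by norm_num
      _ ≤ Real.exp (-1) := by
          rw [Real.exp_neg, one_div]
          exact inv_anti₀ (Real.exp_pos 1) (by
            have := Real.exp_one_lt_d9
            linarith only [this])
  have h3 : (614400 * (p : ℝ) ^ 2 * a / t) ^ p ≤ Real.exp (-(2802 * L ^ 3)) := by
    refine (pow_le_pow_left₀ (by positivity) h2 p).trans ?_
    rw [← Real.exp_nat_mul]
    refine Real.exp_le_exp.2 ?_
    linarith only [hp2]
  have h4 := ev_prob hn htp ht1 huim hnu hnd' hu1 hus hz1z hzp p hp1 hp48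
    (1401 * L ^ 3) (Real.exp_pos (-(L ^ 3)))
  have h5 : (Real.exp (-(L ^ 3)))⁻¹ * (Real.exp (1401 * L ^ 3) *
      (614400 * (p : ℝ) ^ 2 * a / t) ^ p) ≤ Real.exp (-(1400 * L ^ 3)) := by
    rw [← Real.exp_neg, neg_neg]
    calc Real.exp (L ^ 3) * (Real.exp (1401 * L ^ 3) * (614400 * (p : ℝ) ^ 2 * a / t) ^ p)
        ≤ Real.exp (L ^ 3) * (Real.exp (1401 * L ^ 3) * Real.exp (-(2802 * L ^ 3))) := by
          gcongr
      _ = Real.exp (-(1400 * L ^ 3)) := by
          rw [← Real.exp_add, ← Real.exp_add]; congr 1; ring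
  have h6 : 64 * a ^ 2 / t ^ 2 ≤ 64 * ((30000 ^ 3 * L ^ 6 : ℝ)⁻¹) ^ 2 := by
    have e : 64 * a ^ 2 / t ^ 2 = 64 * (a / t) ^ 2 := by field_simp
    rw [e]
    exact mul_le_mul_of_nonneg_left (pow_le_pow_left₀ hat0 hat 2) (by norm_num)
  have hsub : (Ev n)ᶜ ⊆ {g : Pairs n → ℝ | ¬ (-(mm z g).im ≤ 8 * t ∧
        ex (skJ 1 g) (fun _ => 0) (bad z t g) ≤ Real.exp (-(L ^ 3)))} := by
    intro g hg hcon
    apply hg
    refine ⟨z, hzp, ?_, ?_⟩
    · rw [← ht]; exact hcon.1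
    · rw [← ht]; exact hcon.2
  refine (measureReal_mono hsub).trans (h4.trans ?_)
  linarith

/-- **typical starts are slow at the critical point** -/
theorem crit_typical : ∃ C : ℝ, 0 < C ∧ WHP (fun n => {g | ∀ s η : ℝ, 0 ≤ s → 0 < η →
    ex (skJ 1 g) (fun _ => 0)
        (fun x => if tvDist (skJ 1 g) (fun _ => 0) s x < 1 / 2 - η then 1 else 0)
      ≤ C * Real.log n ^ 4 * (n : ℝ) ^ (-(2 / 3 : ℝ)) * s / η
        + Real.exp (-(Real.log n ^ 3))}) := by
  refine ⟨96 * 30000 ^ 2, by norm_num, ?_⟩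
  have hW : WHP Ev := by
    have h := ENNReal.tendsto_ofReal ev_tendsto
    rw [ENNReal.ofReal_zero] at h
    unfold WHP
    refine h.congr fun n => ?_
    have hprob : IsProbabilityMeasure (disorder n) := by unfold disorder; infer_instance
    exact ENNReal.ofReal_toReal (measure_ne_top _ _)
  refine MainThm.whp_mono hW ?_
  filter_upwards [eventually_gt_atTop 1] with n hn
  rintro g ⟨z, hz, hm, hb⟩ s η hs hη
  have hn0 : 0 < n := by omega
  have hn' : (0 : ℝ) < n := by exact_mod_cast hn0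
  have hL : 0 < Real.log n := Real.log_pos (by exact_mod_cast hn)
  have htp : 0 < tt n := by
    unfold tt
    have : 0 < (n : ℝ) ^ (-(1 / 3 : ℝ)) := Real.rpow_pos_of_pos hn' _
    positivity
  have h1 := typ_det z hz hn0 1 g hs htp hη hm
  have h2 : ex (skJ 1 g) (fun _ => 0)
      (fun x => if -((n : ℂ)⁻¹ * FF z g x).im < 1 / (6 * tt n) then 1 else 0)
      ≤ Real.exp (-(Real.log n ^ 3)) := hb
  have e2 : ((n : ℝ) ^ (-(1 / 3 : ℝ))) ^ 2 = (n : ℝ) ^ (-(2 / 3 : ℝ)) := by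
    rw [← Real.rpow_natCast, ← Real.rpow_mul hn'.le]
    congr 1
    push_cast
    ring
  have h3 : 96 * s * tt n ^ 2 / η
      = 96 * 30000 ^ 2 * Real.log n ^ 4 * (n : ℝ) ^ (-(2 / 3 : ℝ)) * s / η := by
    unfold tt
    rw [← e2]
    ring
  rw [h3] at h1
  linarith

end Vale.Agent.P150.H704
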