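import Mathlib
import Vale.Agent.P150.H704.TypLog

open MeasureTheory ProbabilityTheory Filter Topology

/-! All statements at the critical point with one constant. -/

namespace Vale.Agent.P150.H704

open Vale.Agent.P150

/-- The critical point: gap, mixing time, worst start and typical starts. -/
theorem crit_full : ∃ C : ℝ, 0 < C ∧ WHP (fun n => {g |
      gap (skJ 1 g) (fun _ => 0) ≤ C * Real.log n ^ 4 * (n : ℝ) ^ (-(2 / 3 : ℝ)) ∧
      Real.log 2 / (C * Real.log n ^ 4) * (n : ℝ) ^ (2 / 3 : ℝ) ≤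
        tmix (skJ 1 g) (fun _ => 0) ∧
      (∀ t, 0 ≤ t → ∃ x, Real.exp (-(C * Real.log n ^ 4 * (n : ℝ) ^ (-(2 / 3 : ℝ)) * t)) / 2 ≤
        tvDist (skJ 1 g) (fun _ => 0) t x) ∧
      ∀ t η : ℝ, 0 ≤ t → 0 < η → ex (skJ 1 g) (fun _ => 0)
          (fun x => if tvDist (skJ 1 g) (fun _ => 0) t x < 1 / 2 - η then 1 else 0)
        ≤ C * Real.log n ^ 4 * (n : ℝ) ^ (-(2 / 3 : ℝ)) * t / η
          + Real.exp (-(Real.log n ^ 3))}) := by
  obtain ⟨C1, hC1, h1⟩ := H464C.crit_polylog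
  obtain ⟨C2, hC2, h2⟩ := crit_typical
  refine ⟨max C1 C2, lt_max_of_lt_left hC1, MainThm.whp_mono (MainThm.whp_inter h1 h2) ?_⟩
  filter_upwards [eventually_gt_atTop 1] with n hn
  rintro g ⟨⟨a1, a2, a3⟩, a4⟩
  have hn0 : 0 < n := by omega
  have hn' : (0 : ℝ) < n := by exact_mod_cast hn0
  have hL : 0 < Real.log n := Real.log_pos (by exact_mod_cast hn)
  have hq : 0 < (n : ℝ) ^ (-(2 / 3 : ℝ)) := Real.rpow_pos_of_pos hn' _
  have hq2 : 0 < (n : ℝ) ^ (2 / 3 : ℝ) := Real.rpow_pos_of_pos hn' _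
  have hl2 : 0 < Real.log 2 := Real.log_pos (by norm_num)
  have m1 : C1 ≤ max C1 C2 := le_max_left _ _
  have m2 : C2 ≤ max C1 C2 := le_max_right _ _
  have hR : ∀ C, C ≤ max C1 C2 → C * Real.log n ^ 4 * (n : ℝ) ^ (-(2 / 3 : ℝ))
      ≤ max C1 C2 * Real.log n ^ 4 * (n : ℝ) ^ (-(2 / 3 : ℝ)) := fun C hC => by gcongr
  refine ⟨a1.trans (hR C1 m1), le_trans ?_ a2, fun t ht => ?_, fun t η ht hη => ?_⟩
  · refine mul_le_mul_of_nonneg_right ?_ hq2.le
    exact div_le_div_of_nonneg_left hl2.le (by positivity)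
      (mul_le_mul_of_nonneg_right m1 (by positivity))
  · obtain ⟨x, hx⟩ := a3 t ht
    refine ⟨x, le_trans ?_ hx⟩
    refine div_le_div_of_nonneg_right (Real.exp_le_exp.2 (neg_le_neg ?_)) (by norm_num)
    exact mul_le_mul_of_nonneg_right (hR C1 m1) ht
  · refine (a4 t η ht hη).trans ?_
    have h3 : C2 * Real.log n ^ 4 * (n : ℝ) ^ (-(2 / 3 : ℝ)) * t / η
        ≤ max C1 C2 * Real.log n ^ 4 * (n : ℝ) ^ (-(2 / 3 : ℝ)) * t / η :=
      div_le_div_of_nonneg_right (mul_le_mul_of_nonneg_right (hR C2 m2) ht) hη.le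
    linarith

end Vale.Agent.P150.H704
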