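import Mathlib
import Vale.Agent.P150.H704.Upper

open MeasureTheory ProbabilityTheory Filter Topology

/-! Uniform upper bounds for all inverse temperatures. -/

namespace Vale.Agent.P150.H704

open Vale.Agent.P150

lemma ev_exp {c ε : ℝ} (hc : 0 < c) (hε : 0 < ε) :
    ∀ᶠ n : ℕ in atTop, Real.exp (-(ε * n)) ≤ c := by
  have h1 : Tendsto (fun n : ℕ => ε * (n : ℝ)) atTop atTop :=
    tendsto_natCast_atTop_atTop.const_mul_atTop hε
  have h2 := Real.tendsto_exp_neg_atTop_nhds_zero.comp h1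
  filter_upwards [h2.eventually_lt_const hc] with n hn
  exact le_of_lt hn

lemma ev_lin {c ε : ℝ} (hc : 0 < c) (hε : 0 < ε) :
    ∀ᶠ n : ℕ in atTop, (n : ℝ) ≤ c * Real.exp (ε * n) := by
  have h1 : Tendsto (fun x : ℝ => Real.exp (ε * x) / x ^ (1 : ℝ)) atTop atTop :=
    tendsto_exp_mul_div_rpow_atTop 1 ε hε
  have h2 := h1.comp tendsto_natCast_atTop_atTop
  filter_upwards [h2.eventually_ge_atTop c⁻¹, eventually_gt_atTop 0] with n hn hn0
  have hn0' : (0 : ℝ) < n := by exact_mod_cast hn0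
  have h3 : c⁻¹ ≤ Real.exp (ε * n) / (n : ℝ) ^ (1 : ℝ) := hn
  rw [Real.rpow_one, le_div_iff₀ hn0'] at h3
  calc (n : ℝ) = c * (c⁻¹ * n) := by field_simp
    _ ≤ c * Real.exp (ε * n) := mul_le_mul_of_nonneg_left h3 hc.le

theorem base (β0 : ℝ) (h0 : 0 ≤ β0) (h1 : β0 < 1) {ε : ℝ} (hε : 0 < ε) :
    WHP (fun n => {g | ∀ β : ℝ, β0 ≤ β →
      Real.exp (-(((2 * √(Real.log 2) + ε) * (β - β0) + ε) * n)) ≤
        gap (skJ β g) (fun _ => 0) ∧
      tmix (skJ β g) (fun _ => 0) ≤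
        Real.exp (((2 * √(Real.log 2) + ε) * (β - β0) + ε) * n)}) := by
  obtain ⟨c, C, hc, hC, hW⟩ := H185.high_zero_at β0 h0 h1
  have hl2 : 0 < Real.log 2 := Real.log_pos (by norm_num)
  have hl2' : Real.log 2 ≤ 1 := by
    have := Real.log_two_lt_d9; linarith
  have hl4 : Real.log 4 ≤ 2 := by
    have : (4 : ℝ) = 2 ^ 2 := by norm_num
    rw [this, Real.log_pow]; push_cast; linarith
  set s := √(Real.log 2) with hs
  have hs0 : 0 < s := Real.sqrt_pos.2 hl2
  have hs2 : s ^ 2 = Real.log 2 := Real.sq_sqrt hl2.le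
  set M := s + ε / 4 with hM
  have hM0 : 0 < M := by positivity
  have hMs : Real.log 2 < M ^ 2 := by
    rw [← hs2]; rw [hM]; nlinarith
  have hH := whp_H hM0 hMs
  set m := min 1 (ε / 2) with hm
  have hm0 : 0 < m := lt_min one_pos (by linarith)
  have hE1 := ev_exp hc hε
  have hE2 := ev_lin (c := 2 * c * m / (3 + 2 * M)) (by positivity) hε
  refine MainThm.whp_mono (MainThm.whp_inter hW hH) ?_
  filter_upwards [hE1, hE2, eventually_gt_atTop 0] with n he1 he2 hn0
  have hn1 : (1 : ℝ) ≤ n := by exact_mod_cast hn0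
  rintro g ⟨⟨hg, -⟩, hA⟩ β hβ
  have hP : ∀ f : Cfg n → ℝ, c * var (skJ β0 g) (fun _ => 0) f
      ≤ dir (skJ β0 g) (fun _ => 0) f f := fun f =>
    (mul_le_mul_of_nonneg_right hg (Poinc.var_nonneg _ _ f)).trans
      (Semi.gap_mul_var_le _ (Asm.skJ_symm β0 g) f)
  have hD := det_comp hβ hc.le hA hP
  set d := β - β0 with hd
  have hd0 : 0 ≤ d := by rw [hd]; linarith
  set γ := Real.exp (-(2 * d * (M * n))) * c with hγ
  have hγ0 : 0 < γ := mul_pos (Real.exp_pos _) hc
  constructor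
  · refine le_trans ?_ (le_gap hn0 hD)
    have h3 : Real.exp (-(((2 * s + ε) * d + ε) * n))
        = Real.exp (-((2 * s + ε) * d * n)) * Real.exp (-(ε * n)) := by
      rw [← Real.exp_add]; congr 1; ring
    rw [h3, hγ]
    refine mul_le_mul (Real.exp_le_exp.2 ?_) he1 (Real.exp_pos _).le (Real.exp_pos _).le
    have h4 : 0 ≤ d * n := by positivity
    have h5 : (2 * s + ε) * d * n - 2 * d * (M * n) = ε / 2 * (d * n) := by rw [hM]; ring
    have h6 : 0 ≤ ε / 2 * (d * n) := by positivity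
    linarith
  · have hβ0 : 0 ≤ β := h0.trans hβ
    have hβd : β ≤ 1 + d := by rw [hd]; linarith
    have h2 := tmix_le (Asm.skJ_symm β g) (fun _ => 0) (γ := γ)
      (L := n * Real.log 2 + 2 * β * (M * n)) hγ0 (by positivity) hD
      (gibbs_inv_le hβ0 hA)
    refine h2.trans ?_
    rw [div_le_iff₀ (by positivity)]
    -- numerator
    have h3 : n * Real.log 2 + 2 * β * (M * n) + Real.log 4 ≤ (3 + 2 * M) * n * (1 + d) := by
      have e1 : n * Real.log 2 ≤ n * 1 := mul_le_mul_of_nonneg_left hl2' (by linarith)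
      have e2 : 2 * β * (M * n) ≤ 2 * (1 + d) * (M * n) :=
        mul_le_mul_of_nonneg_right (by linarith) (by positivity)
      have e3 : (3 + 2 * M) * n * (1 + d) = 3 * n + 3 * (n * d) + 2 * (1 + d) * (M * n) := by ring
      have e4 : 0 ≤ (n : ℝ) * d := by positivity
      linarith
    have h4 : Real.exp (((2 * s + ε) * d + ε) * n) * (2 * γ)
        = 2 * c * (Real.exp (ε / 2 * (d * n)) * Real.exp (ε * n)) := by
      have : Real.exp (ε / 2 * (d * n)) * Real.exp (ε * n)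
          = Real.exp (((2 * s + ε) * d + ε) * n) * Real.exp (-(2 * d * (M * n))) := by
        rw [← Real.exp_add, ← Real.exp_add]; congr 1; rw [hM]; ring
      rw [this, hγ]; ring
    rw [h4]
    refine h3.trans ?_
    have h5 : m * (1 + d) ≤ Real.exp (ε / 2 * (d * n)) := by
      have e1 : ε / 2 * (d * n) + 1 ≤ Real.exp (ε / 2 * (d * n)) := Real.add_one_le_exp _
      have e2 : d * 1 ≤ d * n := mul_le_mul_of_nonneg_left hn1 hd0
      have e3 : m ≤ 1 := min_le_left _ _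
      have e4 : m ≤ ε / 2 := min_le_right _ _
      have e5 : m * d ≤ ε / 2 * d := mul_le_mul_of_nonneg_right e4 hd0
      have e6 : ε / 2 * d ≤ ε / 2 * (d * n) := mul_le_mul_of_nonneg_left (by linarith) (by linarith)
      linarith
    have h6 : (3 + 2 * M) * n ≤ 2 * c * m * Real.exp (ε * n) := by
      have e1 := mul_le_mul_of_nonneg_left he2 (by positivity : (0 : ℝ) ≤ 3 + 2 * M)
      refine e1.trans (le_of_eq ?_)
      field_simp
    calc (3 + 2 * M) * n * (1 + d) ≤ (2 * c * m * Real.exp (ε * n)) * (1 + d) :=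
          mul_le_mul_of_nonneg_right h6 (by linarith)
      _ = 2 * c * (m * (1 + d) * Real.exp (ε * n)) := by ring
      _ ≤ 2 * c * (Real.exp (ε / 2 * (d * n)) * Real.exp (ε * n)) := by
          refine mul_le_mul_of_nonneg_left ?_ (by positivity)
          exact mul_le_mul_of_nonneg_right h5 (Real.exp_pos _).le

/-- all temperatures at once -/
theorem near {ε : ℝ} (hε : 0 < ε) :
    WHP (fun n => {g | ∀ β : ℝ, 0 ≤ β →
      Real.exp (-(((2 * √(Real.log 2) + ε) * max (β - 1) 0 + ε) * n)) ≤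
        gap (skJ β g) (fun _ => 0) ∧
      tmix (skJ β g) (fun _ => 0) ≤
        Real.exp (((2 * √(Real.log 2) + ε) * max (β - 1) 0 + ε) * n)}) := by
  set s := √(Real.log 2) with hs
  have hs0 : 0 ≤ s := Real.sqrt_nonneg _
  obtain ⟨N, hN⟩ := exists_nat_gt ((2 * s + ε) / (ε / 2))
  have hK : 0 < 2 * s + ε := by linarith
  have hNpos : (0 : ℝ) < N := lt_trans (by positivity) hN
  have hN0 : 0 < N := by exact_mod_cast hNpos
  have hN' : (2 * s + ε) / N ≤ ε / 2 := by
    rw [div_lt_iff₀ (by linarith)] at hN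
    rw [div_le_iff₀ hNpos]
    linarith
  have hall : ∀ᶠ i : F.Idx0 in F.whpF, ∀ k : Fin N, ∀ β : ℝ, ((k : ℕ) : ℝ) / N ≤ β →
      Real.exp (-(((2 * s + ε / 2) * (β - ((k : ℕ) : ℝ) / N) + ε / 2) * i.1)) ≤
        gap (skJ β i.2) (fun _ => 0) ∧
      tmix (skJ β i.2) (fun _ => 0) ≤
        Real.exp (((2 * s + ε / 2) * (β - ((k : ℕ) : ℝ) / N) + ε / 2) * i.1) := by
    rw [Filter.eventually_all]
    intro k
    refine base (((k : ℕ) : ℝ) / N) (by positivity) ?_ (by linarith)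
    rw [div_lt_one hNpos]
    exact_mod_cast k.2
  refine MainThm.whp_mono (A := fun n => {g | ∀ k : Fin N, ∀ β : ℝ, ((k : ℕ) : ℝ) / N ≤ β →
      Real.exp (-(((2 * s + ε / 2) * (β - ((k : ℕ) : ℝ) / N) + ε / 2) * n)) ≤
        gap (skJ β g) (fun _ => 0) ∧
      tmix (skJ β g) (fun _ => 0) ≤
        Real.exp (((2 * s + ε / 2) * (β - ((k : ℕ) : ℝ) / N) + ε / 2) * n)}) hall
    (Eventually.of_forall fun n => ?_)
  intro g hg β hβ
  -- choice of the net point
  obtain ⟨k, hk1, hk2⟩ : ∃ k : Fin N, ((k : ℕ) : ℝ) / N ≤ β ∧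
      β - ((k : ℕ) : ℝ) / N ≤ max (β - 1) 0 + 1 / N := by
    rcases lt_or_ge β 1 with h | h
    · refine ⟨⟨⌊β * N⌋₊, ?_⟩, ?_, ?_⟩
      · rw [Nat.floor_lt (by positivity)]
        calc β * N < 1 * N := mul_lt_mul_of_pos_right h hNpos
          _ = N := one_mul _
      · rw [div_le_iff₀ hNpos]
        exact Nat.floor_le (by positivity)
      · have h1 := Nat.lt_floor_add_one (β * N)
        have h2 : β < ((⌊β * N⌋₊ : ℝ) + 1) / N := by rw [lt_div_iff₀ hNpos]; exact h1
        rw [add_div] at h2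
        have h3 := le_max_right (β - 1) 0
        show β - (⌊β * N⌋₊ : ℝ) / N ≤ _
        linarith
    · refine ⟨⟨N - 1, by omega⟩, ?_, ?_⟩
      · have h1 : ((N - 1 : ℕ) : ℝ) ≤ N := by exact_mod_cast Nat.sub_le N 1
        have h2 : ((N - 1 : ℕ) : ℝ) / N ≤ 1 := by rw [div_le_one hNpos]; exact h1
        exact h2.trans h
      · have h1 : ((N - 1 : ℕ) : ℝ) = N - 1 := by
          rw [Nat.cast_sub (by omega)]; simp
        have h3 := le_max_left (β - 1) 0
        show β - ((N - 1 : ℕ) : ℝ) / N ≤ _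
        rw [h1, sub_div, div_self hNpos.ne']
        linarith
  obtain ⟨h1, h2⟩ := hg k β hk1
  have hrate : ((2 * s + ε / 2) * (β - ((k : ℕ) : ℝ) / N) + ε / 2) * n
      ≤ ((2 * s + ε) * max (β - 1) 0 + ε) * n := by
    refine mul_le_mul_of_nonneg_right ?_ (Nat.cast_nonneg n)
    have e0 : 0 ≤ max (β - 1) 0 := le_max_right _ _
    have e1 : (2 * s + ε / 2) * (β - ((k : ℕ) : ℝ) / N)
        ≤ (2 * s + ε / 2) * (max (β - 1) 0 + 1 / N) :=
      mul_le_mul_of_nonneg_left hk2 (by linarith)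
    have e2 : (2 * s + ε / 2) * (max (β - 1) 0 + 1 / N)
        ≤ (2 * s + ε) * (max (β - 1) 0 + 1 / N) :=
      mul_le_mul_of_nonneg_right (by linarith) (by positivity)
    have e3 : (2 * s + ε) * (max (β - 1) 0 + 1 / N)
        = (2 * s + ε) * max (β - 1) 0 + (2 * s + ε) / N := by ring
    linarith
  exact ⟨(Real.exp_le_exp.2 (neg_le_neg hrate)).trans h1, h2.trans (Real.exp_le_exp.2 hrate)⟩

end Vale.Agent.P150.H704
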